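import Vale.Agent.P214.S1.Area
import Vale.Agent.P214.KMS.Points
import Vale.Agent.P214.WIN.CaccMain

/-!
# P214, block S1: elementary integral estimates over the cylinder
-/

open Set Filter Topology MeasureTheory Metric
open scoped RealInnerProductSpace ENNReal ContDiff

set_option linter.all false

namespace Vale.Agent.P214.S1

open WIN FV Skel KMS

variable {E : Type*} [NormedAddCommGroup E] [InnerProductSpace ℝ E] [FiniteDimensional ℝ E]
  [MeasurableSpace E] [BorelSpace E]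
variable {m n Q : ℕ} {T : Submodule ℝ E} {F : Frame m n T} {u : Fin n → REF.E m → ℝ}
  {ν : Measure E} {P : E → E →L[ℝ] E} {G : Set E} {h δ r R : ℝ}

omit [MeasurableSpace E] [BorelSpace E] in
lemma _root_.Vale.Agent.P214.WIN.Refe.mono' {ε ε' r : ℝ} {u : Fin n → REF.E m → ℝ}
    (h : Refe ε r u) (hε : ε ≤ ε') : Refe ε' r u :=
  ⟨h.smooth, h.supp, fun a k hk x => (h.small a k hk x).trans hε, h.exact⟩

lemma _root_.Vale.Agent.P214.WIN.Refe.mono_r {ε r r' : ℝ} {u : Fin n → REF.E m → ℝ}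
    (h : Refe ε r u) (hr : r' ≤ r) : Refe ε r' u :=
  ⟨h.smooth, h.supp, h.small, fun a x hx => h.exact a x (hx.trans_le hr)⟩

/-- continuous functions are integrable over smaller cylinders -/
lemma integrableOn_cont (hC : CylStat m T G h ν P) {g : E → ℝ} (hg : Continuous g)
    {ρ : ℝ} (hρ : closedBall 0 ρ ⊆ G) : IntegrableOn g (cylSet T 0 ρ) ν := by
  have := hC.fin
  have hK : IsCompact {y : E | T.starProjection y ∈ closedBall (0:E) ρ ∧
      ‖y - T.starProjection y‖ ≤ h} := isCompact_slab T (isCompact_closedBall 0 ρ) h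
  obtain ⟨C, hCb⟩ := hK.exists_bound_of_continuousOn hg.continuousOn
  refine Measure.integrableOn_of_bounded (M := C) (measure_ne_top _ _) hg.aestronglyMeasurable ?_
  rw [ae_restrict_iff' (measurableSet_cylSet T 0 ρ)]
  filter_upwards [hC.slab] with y hy hyρ
  have h1 : T.starProjection y ∈ closedBall (0:E) ρ := ball_subset_closedBall hyρ
  exact hCb y ⟨h1, hy (hρ h1)⟩

/-- the mass of smaller cylinders -/
lemma mass_le (hI : IntCyl m Q T 0 R h δ ν P) (hR : R ≤ 1) (hδ : δ ≤ 1) {ρ : ℝ} (hρ : ρ ≤ R) :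
    ν.real (cylSet T 0 ρ) ≤ Q * om m + 1 := by
  haveI := hI.cyl.fin
  have hR0 := hI.pos
  have h0 : ν.real (cylSet T 0 ρ) ≤ ν.real (cylSet T 0 R) :=
    measureReal_mono (preimage_mono (f := T.starProjection) (ball_subset_ball hρ))
  have h1 := (abs_le.1 hI.mass).2
  have hom : 0 ≤ om m := ENNReal.toReal_nonneg
  have h2 : R ^ m ≤ 1 := pow_le_one₀ hR0.le hR
  have h3 : 0 < R ^ m := pow_pos hR0 m
  have h4 : (Q : ℝ) * om m * R ^ m ≤ Q * om m := mul_le_of_le_one_right (by positivity) h2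
  have h5 : δ * R ^ m ≤ 1 := by
    calc δ * R ^ m ≤ 1 * R ^ m := mul_le_mul_of_nonneg_right hδ h3.le
      _ ≤ 1 := by linarith
  linarith

/-- smaller cylinders, arbitrary mass defect -/
lemma intCyl_smaller (hI : IntCyl m Q T 0 R h δ ν P) {ρ : ℝ} (hρ0 : 0 < ρ) (hρ : ρ ≤ R) :
    ∃ δ' : ℝ, IntCyl m Q T 0 ρ h δ' ν P := by
  refine ⟨|ν.real (cylSet T 0 ρ) - Q * om m * ρ ^ m| / ρ ^ m, ?_⟩
  refine ⟨hI.cyl.mono isOpen_ball (ball_subset_ball hρ), hI.mem, hρ0, ?_, ?_⟩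
  · filter_upwards [hI.int] with y hy hyρ
    exact hy (ball_subset_ball hρ hyρ)
  · have : 0 < ρ ^ m := pow_pos hρ0 m
    rw [div_mul_cancel₀ _ this.ne']

/-- bounds of the relative energy density -/
lemma gsq_bdd (hC : CylStat m T G h ν P) (hu : ∀ a, ContDiff ℝ ∞ (u a))
    (h1 : ∀ y, ‖fderiv ℝ (F.lift u) y‖ ≤ 1) : ∀ᵐ y ∂ν,
    0 ≤ gsq (rel T (F.lift u)) (P y) y ∧ gsq (rel T (F.lift u)) (P y) y ≤ 4 * m := by
  filter_upwards [hC.proj] with y hy
  obtain ⟨S, hS, hP⟩ := hy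
  rw [hP]
  refine ⟨gsq_nonneg _ _ _, ?_⟩
  rw [(ref_lift (F := F) hu).gsq_eq_ew]
  refine (ew_le T _ S).trans ?_
  rw [hS]
  have h2 := h1 y
  have h3 : (1 + ‖fderiv ℝ (F.lift u) y‖) ^ 2 ≤ 4 := by
    have h0 := norm_nonneg (fderiv ℝ (F.lift u) y)
    nlinarith
  have hm : (0 : ℝ) ≤ m := Nat.cast_nonneg m
  nlinarith

lemma integrable_gsq (hC : CylStat m T G h ν P) (hu : ∀ a, ContDiff ℝ ∞ (u a))
    (h1 : ∀ y, ‖fderiv ℝ (F.lift u) y‖ ≤ 1) :
    Integrable (fun y => gsq (rel T (F.lift u)) (P y) y) ν := by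
  have := hC.fin
  refine Integrable.mono' (integrable_const (4 * (m : ℝ))) ?_ ?_
  · exact hC.aesm (continuous_gsq ((ref_lift (F := F) hu).contDiff_rel.of_le (by simp)))
  · filter_upwards [gsq_bdd (F := F) hC hu h1] with y hy
    rw [Real.norm_eq_abs, abs_of_nonneg hy.1]
    exact hy.2

lemma integrable_sqrt {α : Type*} [MeasurableSpace α] {μ : Measure α} [IsFiniteMeasure μ]
    {f : α → ℝ} (hf : Integrable f μ) (h0 : ∀ᵐ y ∂μ, 0 ≤ f y) :
    Integrable (fun y => √(f y)) μ := by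
  refine Integrable.mono' ((integrable_const 1).add hf)
    (Real.continuous_sqrt.comp_aestronglyMeasurable hf.aestronglyMeasurable) ?_
  filter_upwards [h0] with y hy
  rw [Real.norm_eq_abs, abs_of_nonneg (Real.sqrt_nonneg _)]
  show √(f y) ≤ 1 + f y
  rw [Real.sqrt_le_left (by linarith)]
  nlinarith

/-- `∫_C √g ≤ √(M e)` -/
lemma int_sqrt_le (hC : CylStat m T G h ν P) (hu : ∀ a, ContDiff ℝ ∞ (u a))
    (h1 : ∀ y, ‖fderiv ℝ (F.lift u) y‖ ≤ 1) {ρ M e : ℝ} (hM : ν.real (cylSet T 0 ρ) ≤ M)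
    (he : eE T (F.lift u) ν P 0 ρ ≤ e) :
    ∫ y in cylSet T 0 ρ, √(gsq (rel T (F.lift u)) (P y) y) ∂ν ≤ √(M * e) := by
  have := hC.fin
  have h0 : ∀ᵐ y ∂ν, 0 ≤ gsq (rel T (F.lift u)) (P y) y := by
    filter_upwards [gsq_bdd (F := F) hC hu h1] with y hy
    exact hy.1
  refine (integral_sqrt_le_sqrt (integrable_gsq (F := F) hC hu h1).restrict
    (ae_restrict_of_ae h0)).trans ?_
  rw [measureReal_restrict_apply_univ]
  refine Real.sqrt_le_sqrt ?_
  have he0 : 0 ≤ ∫ y in cylSet T 0 ρ, gsq (rel T (F.lift u)) (P y) y ∂ν :=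
    integral_nonneg_of_ae (ae_restrict_of_ae h0)
  exact mul_le_mul hM he he0 (measureReal_nonneg.trans hM)

/-- `∫_C (g + √g) ≤ e + √(M e)` -/
lemma int_add_sqrt_le (hC : CylStat m T G h ν P) (hu : ∀ a, ContDiff ℝ ∞ (u a))
    (h1 : ∀ y, ‖fderiv ℝ (F.lift u) y‖ ≤ 1) {ρ M e : ℝ} (hM : ν.real (cylSet T 0 ρ) ≤ M)
    (he : eE T (F.lift u) ν P 0 ρ ≤ e) :
    ∫ y in cylSet T 0 ρ, (gsq (rel T (F.lift u)) (P y) y
      + √(gsq (rel T (F.lift u)) (P y) y)) ∂ν ≤ e + √(M * e) := by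
  have := hC.fin
  have h0 : ∀ᵐ y ∂ν, 0 ≤ gsq (rel T (F.lift u)) (P y) y := by
    filter_upwards [gsq_bdd (F := F) hC hu h1] with y hy
    exact hy.1
  have i1 := integrable_gsq (F := F) hC hu h1
  rw [integral_add i1.restrict (integrable_sqrt i1 h0).restrict]
  exact add_le_add he (int_sqrt_le hC hu h1 hM he)

/-- `∫_C (g + |v|√g) ≤ e + σ √(M e)` -/
lemma int_add_mul_le (hC : CylStat m T G h ν P) (hu : ∀ a, ContDiff ℝ ∞ (u a))
    (h1 : ∀ y, ‖fderiv ℝ (F.lift u) y‖ ≤ 1) {ρ M e σ : ℝ} (hM : ν.real (cylSet T 0 ρ) ≤ M)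
    (he : eE T (F.lift u) ν P 0 ρ ≤ e) (hσ0 : 0 ≤ σ)
    (hσ : ∀ᵐ y ∂ν, y ∈ cylSet T 0 ρ → ‖rel T (F.lift u) y‖ ≤ σ) :
    ∫ y in cylSet T 0 ρ, (gsq (rel T (F.lift u)) (P y) y
      + ‖rel T (F.lift u) y‖ * √(gsq (rel T (F.lift u)) (P y) y)) ∂ν ≤ e + σ * √(M * e) := by
  have := hC.fin
  have h0 : ∀ᵐ y ∂ν, 0 ≤ gsq (rel T (F.lift u)) (P y) y := by
    filter_upwards [gsq_bdd (F := F) hC hu h1] with y hy
    exact hy.1
  have i1 := integrable_gsq (F := F) hC hu h1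
  have i2 := integrable_sqrt i1 h0
  have hv : Continuous fun y => ‖rel T (F.lift u) y‖ :=
    (ref_lift (F := F) hu).contDiff_rel.continuous.norm
  have hcyl := measurableSet_cylSet T (0:E) ρ
  have i3 : Integrable (fun y => ‖rel T (F.lift u) y‖ * √(gsq (rel T (F.lift u)) (P y) y))
      (ν.restrict (cylSet T 0 ρ)) := by
    refine Integrable.mono' (i2.restrict.const_mul σ)
      (hv.aestronglyMeasurable.mul i2.aestronglyMeasurable.restrict) ?_
    rw [ae_restrict_iff' hcyl]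
    filter_upwards [hσ] with y hy hyρ
    rw [Real.norm_eq_abs, abs_of_nonneg (mul_nonneg (norm_nonneg _) (Real.sqrt_nonneg _))]
    exact mul_le_mul_of_nonneg_right (hy hyρ) (Real.sqrt_nonneg _)
  rw [integral_add i1.restrict i3]
  refine add_le_add he ?_
  calc ∫ y in cylSet T 0 ρ, ‖rel T (F.lift u) y‖ * √(gsq (rel T (F.lift u)) (P y) y) ∂ν
      ≤ ∫ y in cylSet T 0 ρ, σ * √(gsq (rel T (F.lift u)) (P y) y) ∂ν := by
        refine integral_mono_ae i3 (i2.restrict.const_mul σ) ?_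
        rw [EventuallyLE, ae_restrict_iff' hcyl]
        filter_upwards [hσ] with y hy hyρ
        exact mul_le_mul_of_nonneg_right (hy hyρ) (Real.sqrt_nonneg _)
    _ = σ * ∫ y in cylSet T 0 ρ, √(gsq (rel T (F.lift u)) (P y) y) ∂ν := integral_const_mul _ _
    _ ≤ σ * √(M * e) := mul_le_mul_of_nonneg_left (int_sqrt_le hC hu h1 hM he) hσ0

/-- `∫_C |v| ≤ √(M H)` -/
lemma int_norm_le (hC : CylStat m T G h ν P) (hu : ∀ a, ContDiff ℝ ∞ (u a)) {ρ M : ℝ}
    (hρ : closedBall 0 ρ ⊆ G) (hM : ν.real (cylSet T 0 ρ) ≤ M) :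
    ∫ y in cylSet T 0 ρ, ‖rel T (F.lift u) y‖ ∂ν ≤ √(M * hE T (F.lift u) ν ρ) := by
  have := hC.fin
  have hv : Continuous fun y => ‖rel T (F.lift u) y‖ ^ 2 :=
    (ref_lift (F := F) hu).contDiff_rel.continuous.norm.pow 2
  have h2 := integral_sqrt_le_sqrt (integrableOn_cont hC hv hρ)
    (Eventually.of_forall fun y => sq_nonneg _)
  rw [measureReal_restrict_apply_univ] at h2
  have e1 : ∀ y, √(‖rel T (F.lift u) y‖ ^ 2) = ‖rel T (F.lift u) y‖ := fun y =>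
    Real.sqrt_sq (norm_nonneg _)
  simp only [e1] at h2
  refine h2.trans (Real.sqrt_le_sqrt ?_)
  exact mul_le_mul_of_nonneg_right hM (integral_nonneg fun y => sq_nonneg _)

end Vale.Agent.P214.S1
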