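import Vale.Agent.P214.S1.Main
import Vale.Agent.P214.HSW.SupW
import Vale.Agent.P214.AVG.Stmt
import Vale.Agent.P214.INTW.Fin
import Vale.Agent.P214.LIN.Main
import Vale.Agent.P214.WIN.Step
import Vale.Agent.P214.WIN.Recut
import Vale.Agent.P214.WIN.Bad
import Vale.Agent.P214.WIN.StepOne
import Vale.Agent.P214.ALL.Fin

/-!
# P214, blocks S1, STEP, ALL: everything plugged in, from [WEYL]
-/

open Vale.Agent.P214 Vale.Agent.P214.WIN

namespace Vale.Agent.P214.S1

variable {E : Type*} [NormedAddCommGroup E] [InnerProductSpace ℝ E] [FiniteDimensional ℝ E]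
  [MeasurableSpace E] [BorelSpace E] {m n : ℕ}

/-- **[S1]** from [WEYL] -/
theorem s1_of_weyl (hm : 0 < m) (hW : 0 < n → LIN.WeylStmt E m n (2 * m + 1)) : S1Stmt E m n :=
  s1 (fun hn => LIN.linwStmt_of_weyl E hm hn (hW hn)) (AVG.avgStmt E m n) (caccStmt m n)
    (HSW.supStmt E m n) (INTW.intWStmt E m n)

/-- **[STEP]** from [WEYL] -/
theorem step_of_weyl (hm : 0 < m) (hW : 0 < n → LIN.WeylStmt E m n (2 * m + 1)) {Q : ℕ}
    (hQ : 1 ≤ Q) : StepStmt E m n Q :=
  stepStmt_of (s1_of_weyl hm hW) (recut m n) (BADS.badStmt hm) hQ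

/-- **`UC` at points of multiplicity one** from [WEYL] -/
theorem uc_mult_one_of_weyl (hm : 0 < m)
    (hW : 0 < Module.finrank ℝ E - m → LIN.WeylStmt E m (Module.finrank ℝ E - m) (2 * m + 1))
    {U : Set E} {V : IntegralVarifold m U} (hU : IsOpen U) (hst : V.IsStationary) {x : E}
    (hx : Skel.GoodPt V x) (h1 : V.mult x = 1) :
    ∃ W S : Set E, IsOpen W ∧ x ∈ W ∧ W ⊆ U ∧ IsSmoothSubmanifold m S ∧ V.spt ∩ W ⊆ S :=
  ALL.uc_mult_one_of_step (stepOne_of_step (step_of_weyl hm hW le_rfl)) hU hst hx h1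

end Vale.Agent.P214.S1
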