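import Vale.Agent.P214.REG.Fin
import Vale.Agent.P214.WIN.Props

/-!
# P214, block S1: derivative bounds for the area element `√det g_u` of an exact reference
-/

open Set Filter Topology MeasureTheory Metric
open scoped RealInnerProductSpace ENNReal ContDiff

set_option linter.all false

namespace Vale.Agent.P214.S1

open WIN

noncomputable section

variable {m n : ℕ}

section pi

variable {X F : Type*} [NormedAddCommGroup X] [NormedSpace ℝ X] [NormedAddCommGroup F]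
  [NormedSpace ℝ F]

lemma norm_iter_pi {u : Fin n → X → F} (hu : ∀ b, ContDiff ℝ ∞ (u b)) (k : ℕ) (x : X) {M : ℝ}
    (hM : 0 ≤ M) (h : ∀ b, ‖iteratedFDeriv ℝ k (u b) x‖ ≤ M) :
    ‖iteratedFDeriv ℝ k (fun x b => u b x) x‖ ≤ M := by
  refine ContinuousMultilinearMap.opNorm_le_bound hM fun v => ?_
  have hprod : 0 ≤ ∏ i, ‖v i‖ := Finset.prod_nonneg fun _ _ => norm_nonneg _
  rw [pi_norm_le_iff_of_nonneg (mul_nonneg hM hprod)]
  intro b
  have hU : ContDiff ℝ ∞ (fun x b => u b x) := contDiff_pi.2 hu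
  have hk : ((k : ℕ∞) : WithTop ℕ∞) ≤ (∞ : WithTop ℕ∞) := by exact_mod_cast le_top
  have h1 := ContinuousLinearMap.iteratedFDeriv_comp_left
    (ContinuousLinearMap.proj (R := ℝ) (φ := fun _ : Fin n => F) b) (hU.of_le hk).contDiffAt
    (x := x) (i := k) le_rfl
  have e : (ContinuousLinearMap.proj (R := ℝ) (φ := fun _ : Fin n => F) b) ∘ (fun x b => u b x) =
      u b := rfl
  rw [e] at h1
  have h2 : iteratedFDeriv ℝ k (fun x b => u b x) x v b = iteratedFDeriv ℝ k (u b) x v := by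
    rw [h1]; rfl
  rw [h2]
  exact ((iteratedFDeriv ℝ k (u b) x).le_opNorm v).trans
    (mul_le_mul_of_nonneg_right (h b) hprod)

lemma exists_iter_bound [ProperSpace X] {f : X → ℝ} (h : ContDiff ℝ ∞ f) (k : ℕ) :
    ∃ C : ℝ, 0 ≤ C ∧ ∀ A : X, ‖A‖ ≤ 1 → ‖iteratedFDeriv ℝ k f A‖ ≤ C := by
  have hc : Continuous (iteratedFDeriv ℝ k f) :=
    h.continuous_iteratedFDeriv (by exact_mod_cast le_top)
  have hn : Continuous fun A => ‖iteratedFDeriv ℝ k f A‖ := hc.norm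
  obtain ⟨C, hC⟩ := (isCompact_closedBall (0 : X) 1).bddAbove_image hn.continuousOn
  exact ⟨max C 0, le_max_right _ _, fun A hA =>
      (hC ⟨A, by simpa using hA, rfl⟩).trans (le_max_left _ _)⟩

end pi

/-- gradients of all components -/
def gr (u : Fin n → REF.E m → ℝ) (x : REF.E m) : Fin n → (REF.E m →L[ℝ] ℝ) :=
  fun b => fderiv ℝ (u b) x

/-- the metric as a function of the gradients -/
def gA (A : Fin n → (REF.E m →L[ℝ] ℝ)) : Matrix (Fin m) (Fin m) ℝ :=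
  1 + Matrix.of fun i j => ∑ b, A b (REF.bs i) * A b (REF.bs j)

lemma gA_gr (u : Fin n → REF.E m → ℝ) (x : REF.E m) : gA (gr u x) = REF.gm u x := rfl

lemma gA_posDef (A : Fin n → (REF.E m →L[ℝ] ℝ)) : (gA A).PosDef := by
  unfold gA
  refine Matrix.PosDef.add_posSemidef Matrix.PosDef.one ?_
  have h1 : (Matrix.of fun i j => ∑ b, A b (REF.bs i) * A b (REF.bs j) :
      Matrix (Fin m) (Fin m) ℝ) =
      (Matrix.of fun i b => A b (REF.bs i)) * (Matrix.of fun i b => A b (REF.bs i)).conjTranspose := by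
    ext i j
    simp [Matrix.mul_apply]
  rw [h1]
  exact Matrix.posSemidef_self_mul_conjTranspose _

/-- the area integrand -/
def ai (A : Fin n → (REF.E m →L[ℝ] ℝ)) : ℝ := √(gA A).det

lemma contDiff_ai : ContDiff ℝ ∞ (ai : (Fin n → (REF.E m →L[ℝ] ℝ)) → ℝ) := by
  unfold ai
  refine ContDiff.sqrt ?_ fun A => (gA_posDef A).det_pos.ne'
  have he : ∀ i j, ContDiff ℝ ∞ fun A : Fin n → (REF.E m →L[ℝ] ℝ) => gA A i j := by
    intro i j
    have h1 : (fun A : Fin n → (REF.E m →L[ℝ] ℝ) => gA A i j) =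
        fun A => (1 : Matrix (Fin m) (Fin m) ℝ) i j + ∑ b, A b (REF.bs i) * A b (REF.bs j) := by
      funext A
      simp [gA]
    rw [h1]
    have h2 : ∀ (b : Fin n) (i : Fin m), ContDiff ℝ ∞
        fun A : Fin n → (REF.E m →L[ℝ] ℝ) => A b (REF.bs i) := by
      intro b i
      exact (contDiff_apply ℝ (REF.E m →L[ℝ] ℝ) b).clm_apply contDiff_const
    exact contDiff_const.add (ContDiff.sum fun b _ => (h2 b i).mul (h2 b j))
  have h3 : (fun A : Fin n → (REF.E m →L[ℝ] ℝ) => (gA A).det) =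
      fun A => ∑ σ : Equiv.Perm (Fin m), (Equiv.Perm.sign σ : ℤ) • ∏ i, gA A (σ i) i := by
    funext A
    rw [Matrix.det_apply]
    rfl
  rw [h3]
  refine ContDiff.sum fun σ _ => ?_
  have h4 : ContDiff ℝ ∞ fun A : Fin n → (REF.E m →L[ℝ] ℝ) => ∏ i, gA A (σ i) i :=
    contDiff_prod fun i _ => he (σ i) i
  have h5 : (fun A : Fin n → (REF.E m →L[ℝ] ℝ) =>
      (Equiv.Perm.sign σ : ℤ) • ∏ i, gA A (σ i) i) =
      fun A => ((Equiv.Perm.sign σ : ℤ) : ℝ) * ∏ i, gA A (σ i) i := by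
    funext A
    rw [zsmul_eq_mul]
  rw [h5]
  exact contDiff_const.mul h4

lemma contDiff_gr {u : Fin n → REF.E m → ℝ} (hu : ∀ b, ContDiff ℝ ∞ (u b)) :
    ContDiff ℝ ∞ (gr u) :=
  contDiff_pi.2 fun b => (hu b).fderiv_right (m := ∞) (by norm_num)

lemma contDiff_area {u : Fin n → REF.E m → ℝ} (hu : ∀ b, ContDiff ℝ ∞ (u b)) :
    ContDiff ℝ ∞ fun x => √(REF.gm u x).det :=
  contDiff_ai.comp (contDiff_gr hu)

/-- bounds of the derivatives of the area integrand on the unit ball -/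
lemma exists_ai_bound (m n s : ℕ) : ∃ C : ℝ, 1 ≤ C ∧ ∀ k ≤ s, ∀ A : Fin n → (REF.E m →L[ℝ] ℝ),
    ‖A‖ ≤ 1 → ‖iteratedFDeriv ℝ k ai A‖ ≤ C := by
  have h1 : ∀ k : ℕ, ∃ C : ℝ, 0 ≤ C ∧ ∀ A : Fin n → (REF.E m →L[ℝ] ℝ),
      ‖A‖ ≤ 1 → ‖iteratedFDeriv ℝ k ai A‖ ≤ C := fun k => exists_iter_bound contDiff_ai k
  choose C hC0 hC using h1
  refine ⟨1 + ∑ k ∈ Finset.range (s + 1), C k, ?_, fun k hk A hA => ?_⟩
  · have : 0 ≤ ∑ k ∈ Finset.range (s + 1), C k := Finset.sum_nonneg fun k _ => hC0 k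
    linarith
  · have h2 : C k ≤ ∑ k ∈ Finset.range (s + 1), C k :=
      Finset.single_le_sum (f := C) (fun k _ => hC0 k) (Finset.mem_range.2 (by omega))
    linarith [hC k A hA]

/-- **derivatives of the area element of an exact reference** -/
theorem exists_area_bound (m n s : ℕ) : ∃ ε C : ℝ, 0 < ε ∧ 1 ≤ C ∧
    ∀ (u : Fin n → REF.E m → ℝ) (r θ : ℝ), Refe ε r u → 0 < θ → θ ≤ 1 / 2 →
      ∀ x, ‖x‖ + θ ≤ r → ∀ k ≤ s,
        ‖iteratedFDeriv ℝ k (fun x => √(REF.gm u x).det) x‖ ≤ C * θ⁻¹ ^ k := by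
  obtain ⟨ε₀, hε₀, hA, -, -⟩ := REG.exists_reg_minimal m n
  obtain ⟨C₁, hC₁, hb⟩ := hA (s + 1)
  obtain ⟨C₂, hC₂, hai⟩ := exists_ai_bound m n s
  refine ⟨min ε₀ 1, (s.factorial : ℝ) * C₂ * C₁ ^ s, lt_min hε₀ one_pos, ?_, ?_⟩
  · have h1 : (1:ℝ) ≤ s.factorial := by exact_mod_cast Nat.one_le_iff_ne_zero.2 (Nat.factorial_ne_zero s)
    have h2 : 1 ≤ C₁ ^ s := one_le_pow₀ hC₁
    exact one_le_mul_of_one_le_of_one_le (one_le_mul_of_one_le_of_one_le h1 hC₂) h2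
  intro u r θ hu hθ hθ2 x hx k hk
  have hin : ∀ y, ‖y - x‖ < θ → ‖y‖ < r := by
    intro y hy
    have : ‖y‖ ≤ ‖y - x‖ + ‖x‖ := by
      have := norm_add_le (y - x) x
      rwa [sub_add_cancel] at this
    linarith
  have hmin : REG.MinAt ε₀ x θ u :=
    { smooth := hu.smooth
      small := fun a k _ hk y _ => (hu.small a k (by unfold sW; omega) y).trans (min_le_left _ _)
      eq := fun a y hy => hu.exact a y (hin y hy) }
  have hgr : ∀ i, 1 ≤ i → i ≤ k → ‖iteratedFDeriv ℝ i (gr u) x‖ ≤ (C₁ * θ⁻¹) ^ i := by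
    intro i hi hik
    refine norm_iter_pi (u := fun b => fderiv ℝ (u b))
      (fun b => (hu.smooth b).fderiv_right (m := ∞) (by norm_num)) i x (by positivity) fun b => ?_
    rw [norm_iteratedFDeriv_fderiv]
    have h3 := hb x θ u hθ hθ2 hmin b (i + 1) (by omega) (by omega)
    rw [Nat.add_sub_cancel] at h3
    refine h3.trans ?_
    rw [mul_pow]
    refine mul_le_mul_of_nonneg_right ?_ (by positivity)
    calc C₁ = C₁ ^ 1 := (pow_one _).symm
      _ ≤ C₁ ^ i := pow_le_pow_right₀ hC₁ hi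
  have hgr0 : ‖gr u x‖ ≤ 1 := by
    rw [pi_norm_le_iff_of_nonneg zero_le_one]
    intro b
    have h4 := (hu.small b 1 (by unfold sW; omega) x).trans (min_le_right _ _)
    rwa [norm_iteratedFDeriv_one] at h4
  have h5 := norm_iteratedFDeriv_comp_le (𝕜 := ℝ) (g := (ai : (Fin n → (REF.E m →L[ℝ] ℝ)) → ℝ))
    (f := gr u) (n := k) (N := ∞) contDiff_ai (contDiff_gr hu.smooth) (by exact_mod_cast le_top) x
    (C := C₂) (D := C₁ * θ⁻¹) (fun i hi => hai i (hi.trans hk) _ hgr0) hgr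
  have e : (ai ∘ gr u) = fun x => √(REF.gm u x).det := rfl
  rw [e] at h5
  refine h5.trans ?_
  rw [mul_pow, ← mul_assoc]
  refine mul_le_mul_of_nonneg_right ?_ (by positivity)
  have h6 : (k.factorial : ℝ) ≤ s.factorial := by exact_mod_cast Nat.factorial_le hk
  have h7 : C₁ ^ k ≤ C₁ ^ s := pow_le_pow_right₀ hC₁ hk
  have h8 : 0 ≤ C₁ ^ k := by positivity
  have h9 : (0:ℝ) ≤ k.factorial := by positivity
  have h10 : (0:ℝ) ≤ C₂ := by linarith
  gcongr

/-- the area element of a small reference is bounded below -/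
lemma exists_area_lower (m n : ℕ) : ∃ c : ℝ, 0 < c ∧ ∀ A : Fin n → (REF.E m →L[ℝ] ℝ), ‖A‖ ≤ 1 →
    c ≤ ai A := by
  have hc : Continuous (ai : (Fin n → (REF.E m →L[ℝ] ℝ)) → ℝ) := contDiff_ai.continuous
  obtain ⟨A₀, hA₀, hmin⟩ := (isCompact_closedBall (0 : Fin n → (REF.E m →L[ℝ] ℝ)) 1).exists_isMinOn
    ⟨0, by simp⟩ hc.continuousOn
  refine ⟨ai A₀, Real.sqrt_pos.2 (gA_posDef A₀).det_pos, fun A hA => ?_⟩
  exact hmin (by simpa using hA : A ∈ closedBall (0 : Fin n → (REF.E m →L[ℝ] ℝ)) 1)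

lemma norm_gr_le {ε r : ℝ} {u : Fin n → REF.E m → ℝ} (hu : Refe ε r u) (hε : ε ≤ 1)
    (x : REF.E m) : ‖gr u x‖ ≤ 1 := by
  rw [pi_norm_le_iff_of_nonneg zero_le_one]
  intro b
  have h4 := (hu.small b 1 (by unfold sW; omega) x).trans hε
  rwa [norm_iteratedFDeriv_one] at h4

/-- product of a test function with a smooth function -/
lemma tst_mul {s : ℕ} {r₁ M : ℝ} {φ : Fin n → REF.E m → ℝ} (hφ : Tst s r₁ M φ) {a : REF.E m → ℝ}
    (ha : ContDiff ℝ ∞ a) {B : ℝ} (hB : 0 ≤ B)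
    (hab : ∀ x, ‖x‖ ≤ r₁ → ∀ k ≤ s, ‖iteratedFDeriv ℝ k a x‖ ≤ B) (hM : 0 ≤ M) :
    Tst s r₁ (2 ^ s * B * M) (fun b x => φ b x * a x) := by
  refine ⟨fun b => (hφ.smooth b).mul ha, fun b x hx => by rw [hφ.supp b x hx, zero_mul], ?_⟩
  intro b k hk x
  by_cases hx : ‖x‖ ≤ r₁
  · have h1 := norm_iteratedFDeriv_mul_le (hφ.smooth b) ha x (n := k) (by exact_mod_cast le_top)
    refine h1.trans ?_
    have h2 : ∀ i ∈ Finset.range (k + 1), (k.choose i : ℝ) * ‖iteratedFDeriv ℝ i (φ b) x‖ *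
        ‖iteratedFDeriv ℝ (k - i) a x‖ ≤ (k.choose i : ℝ) * (M * B) := by
      intro i hi
      have hi' : i ≤ k := by
        have := Finset.mem_range.1 hi
        omega
      rw [mul_assoc]
      refine mul_le_mul_of_nonneg_left ?_ (Nat.cast_nonneg _)
      exact mul_le_mul (hφ.bd b i (hi'.trans hk) x) (hab x hx _ ((Nat.sub_le _ _).trans hk))
        (norm_nonneg _) hM
    refine (Finset.sum_le_sum h2).trans ?_
    rw [← Finset.sum_mul]
    have h3 : ∑ i ∈ Finset.range (k + 1), (k.choose i : ℝ) = 2 ^ k := by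
      exact_mod_cast Nat.sum_range_choose k
    rw [h3]
    have h4 : (2:ℝ) ^ k ≤ 2 ^ s := pow_le_pow_right₀ one_le_two hk
    have h5 : 0 ≤ M * B := mul_nonneg hM hB
    calc (2:ℝ) ^ k * (M * B) ≤ 2 ^ s * (M * B) := mul_le_mul_of_nonneg_right h4 h5
      _ = 2 ^ s * B * M := by ring
  · have h6 : (fun x => φ b x * a x) =ᶠ[𝓝 x] fun _ => (0:ℝ) := by
      have : {y : REF.E m | r₁ < ‖y‖} ∈ 𝓝 x :=
        (isOpen_lt continuous_const continuous_norm).mem_nhds (not_le.1 hx)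
      filter_upwards [this] with y hy
      rw [hφ.supp b y (le_of_lt hy), zero_mul]
    have h7 := (h6.iteratedFDeriv ℝ k).eq_of_nhds
    rw [h7]
    have h8 : iteratedFDeriv ℝ k (fun _ : REF.E m => (0:ℝ)) = 0 := iteratedFDeriv_zero_fun
    rw [h8]
    simp only [Pi.zero_apply, norm_zero]
    positivity

/-- partial derivatives only see the germ -/
lemma pd_eventually {f : REF.E m → ℝ} {x : REF.E m} (h : f =ᶠ[𝓝 x] fun _ => 0) (i : Fin m) :
    REF.pd i f =ᶠ[𝓝 x] fun _ => 0 := by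
  filter_upwards [h.eventuallyEq_nhds] with y hy
  unfold REF.pd
  rw [hy.fderiv_eq]
  simp

/-- `L_w^t φ` vanishes off the support of `φ` -/
lemma ltw_eq_zero (u : Fin n → REF.E m → ℝ) {φ : Fin n → REF.E m → ℝ} {r₁ : ℝ}
    (hφ : ∀ a x, r₁ ≤ ‖x‖ → φ a x = 0) (b : Fin n) {x : REF.E m} (hx : r₁ < ‖x‖) :
    Ltw u φ b x = 0 := by
  have hmem : {y : REF.E m | r₁ < ‖y‖} ∈ 𝓝 x :=
    (isOpen_lt continuous_const continuous_norm).mem_nhds hx
  unfold Ltw
  have h1 : ∀ i j, REF.pd i (REF.pd j fun x => Aco u i j x * φ b x) x = 0 := by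
    intro i j
    have : (fun x => Aco u i j x * φ b x) =ᶠ[𝓝 x] fun _ => 0 := by
      filter_upwards [hmem] with y hy
      rw [hφ b y (le_of_lt hy), mul_zero]
    exact (pd_eventually (pd_eventually this j) i).eq_of_nhds
  have h2 : ∀ a k, REF.pd k (fun x => bco u a b k x * φ a x) x = 0 := by
    intro a k
    have : (fun x => bco u a b k x * φ a x) =ᶠ[𝓝 x] fun _ => 0 := by
      filter_upwards [hmem] with y hy
      rw [hφ a y (le_of_lt hy), mul_zero]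
    exact (pd_eventually this k).eq_of_nhds
  simp only [h1, h2, Finset.sum_const_zero, sub_zero]

end

end Vale.Agent.P214.S1
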