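import Vale.Agent.P214.S1.Basic
import Vale.Agent.P214.COORD.Area

/-!
# P214, block S1: the renormalised components of the height
-/

open Set Filter Topology MeasureTheory Metric
open scoped RealInnerProductSpace ENNReal ContDiff

set_option linter.all false

namespace Vale.Agent.P214.S1

open WIN FV Skel KMS

noncomputable section

variable {E : Type*} [NormedAddCommGroup E] [InnerProductSpace ℝ E] [FiniteDimensional ℝ E]
variable {m n : ℕ} {T : Submodule ℝ E} {F : Frame m n T} {u : Fin n → REF.E m → ℝ}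
  {κ r r₁ h δ : ℝ} {G : Set E}

/-- the renormalised components of the height over the cylinder of radius `r₁` -/
def zc (F : Frame m n T) (u : Fin n → REF.E m → ℝ) (κ r₁ : ℝ) (b : Fin n) (y : E) : ℝ :=
  (cylSet T 0 r₁).indicator (fun y => F.ht u b y / √(REF.gm u (F.xc y)).det / κ) y

lemma area_pos (u : Fin n → REF.E m → ℝ) (x : REF.E m) : 0 < √(REF.gm u x).det :=
  Real.sqrt_pos.2 (REF.gm_posDef u x).det_pos

lemma continuous_xc' (F : Frame m n T) : Continuous F.xc := (xcL F).continuous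

lemma continuous_ht (hu : ∀ a, Continuous (u a)) (b : Fin n) : Continuous fun y => F.ht u b y := by
  unfold Frame.ht
  exact (continuous_const.inner continuous_id).sub ((hu b).comp (continuous_xc' F))

lemma abs_ht_le (b : Fin n) (y : E) : |F.ht u b y| ≤ ‖rel T (F.lift u) y‖ := by
  rw [ht_eq]
  refine (abs_real_inner_le_norm _ _).trans ?_
  rw [norm_bN, one_mul]

lemma mem_cyl_iff (F : Frame m n T) (y : E) (ρ : ℝ) : y ∈ cylSet T 0 ρ ↔ ‖F.xc y‖ < ρ := by
  change T.starProjection y ∈ ball (0:E) ρ ↔ _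
  rw [mem_ball_zero_iff, KMS.norm_xc]

lemma continuous_zfun (hu : ∀ a, ContDiff ℝ ∞ (u a)) (b : Fin n) :
    Continuous fun y => F.ht u b y / √(REF.gm u (F.xc y)).det / κ := by
  refine Continuous.div_const ?_ _
  refine (continuous_ht (fun a => (hu a).continuous) b).div
    ((contDiff_area hu).continuous.comp (continuous_xc' F)) fun y => ?_
  exact (area_pos u _).ne'

/-- pairing with the adjoint operator -/
lemma zc_ltw (hκ : κ ≠ 0) {φ : Fin n → REF.E m → ℝ} {r' : ℝ} (hφ : ∀ a x, r' ≤ ‖x‖ → φ a x = 0)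
    (hr : r' < r₁) (y : E) :
    ∑ b, zc F u κ r₁ b y * Ltw u φ b (F.xc y) =
      κ⁻¹ * ∑ b, F.ht u b y / √(REF.gm u (F.xc y)).det * Ltw u φ b (F.xc y) := by
  rw [Finset.mul_sum]
  refine Finset.sum_congr rfl fun b _ => ?_
  unfold zc
  by_cases hy : y ∈ cylSet T 0 r₁
  · rw [indicator_of_mem hy]
    field_simp
  · rw [indicator_of_notMem hy]
    rw [mem_cyl_iff F, not_lt] at hy
    rw [ltw_eq_zero u hφ b (lt_of_lt_of_le hr hy)]
    simp

/-- pairing with `κ √det g φ` -/
lemma zc_test (hκ : κ ≠ 0) {φ : Fin n → REF.E m → ℝ} {r' : ℝ} (hφ : ∀ a x, r' ≤ ‖x‖ → φ a x = 0)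
    (hr : r' ≤ r₁) (y : E) :
    ∑ b, zc F u κ r₁ b y * (φ b (F.xc y) * (κ * √(REF.gm u (F.xc y)).det)) =
      ∑ b, φ b (F.xc y) * F.ht u b y := by
  refine Finset.sum_congr rfl fun b _ => ?_
  unfold zc
  by_cases hy : y ∈ cylSet T 0 r₁
  · rw [indicator_of_mem hy]
    have := (area_pos u (F.xc y)).ne'
    field_simp
  · rw [indicator_of_notMem hy]
    rw [mem_cyl_iff F, not_lt] at hy
    rw [hφ b _ (hr.trans hy)]
    simp

variable [MeasurableSpace E] [BorelSpace E] {ν : Measure E} {P : E → E →L[ℝ] E}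

lemma integrable_zc (hC : CylStat m T G h ν P) (hu : ∀ a, ContDiff ℝ ∞ (u a))
    (hG : closedBall 0 r₁ ⊆ G) (b : Fin n) : Integrable (zc F u κ r₁ b) ν := by
  have h1 := integrableOn_cont hC (continuous_zfun (F := F) (κ := κ) hu b) hG
  exact h1.integrable_indicator (measurableSet_cylSet T 0 r₁)

/-- the `L¹` norm -/
lemma sum_abs_zc_le (hC : CylStat m T G h ν P) (hu : ∀ a, ContDiff ℝ ∞ (u a))
    (hG : closedBall 0 r₁ ⊆ G) (hκ : 0 < κ) {c : ℝ} (hc : 0 < c)
    (hlow : ∀ x, c ≤ √(REF.gm u x).det) {I : ℝ}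
    (hI : ∫ y in cylSet T 0 r₁, ‖rel T (F.lift u) y‖ ∂ν ≤ I) :
    ∑ b, ∫ y, |zc F u κ r₁ b y| ∂ν ≤ n * ((c * κ)⁻¹ * I) := by
  have hcyl := measurableSet_cylSet T (0:E) r₁
  have hv : Continuous fun y => ‖rel T (F.lift u) y‖ :=
    (ref_lift (F := F) hu).contDiff_rel.continuous.norm
  have h1 : ∀ b, ∫ y, |zc F u κ r₁ b y| ∂ν ≤ (c * κ)⁻¹ * I := by
    intro b
    have e1 : (fun y => |zc F u κ r₁ b y|) = (cylSet T 0 r₁).indicator
        (fun y => |F.ht u b y / √(REF.gm u (F.xc y)).det / κ|) := by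
      funext y
      unfold zc
      by_cases hy : y ∈ cylSet T 0 r₁
      · rw [indicator_of_mem hy, indicator_of_mem hy]
      · rw [indicator_of_notMem hy, indicator_of_notMem hy, abs_zero]
    rw [e1, integral_indicator hcyl]
    calc ∫ y in cylSet T 0 r₁, |F.ht u b y / √(REF.gm u (F.xc y)).det / κ| ∂ν
        ≤ ∫ y in cylSet T 0 r₁, (c * κ)⁻¹ * ‖rel T (F.lift u) y‖ ∂ν := by
          refine integral_mono_of_nonneg (Eventually.of_forall fun y => abs_nonneg _)
            ((integrableOn_cont hC hv hG).const_mul _) (Eventually.of_forall fun y => ?_)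
          change |F.ht u b y / √(REF.gm u (F.xc y)).det / κ| ≤ (c * κ)⁻¹ * ‖rel T (F.lift u) y‖
          rw [abs_div, abs_div, abs_of_pos (area_pos u _), abs_of_pos hκ, div_div]
          rw [div_eq_inv_mul]
          refine mul_le_mul ?_ (abs_ht_le b y) (abs_nonneg _) (by positivity)
          refine inv_anti₀ (by positivity) ?_
          exact mul_le_mul_of_nonneg_right (hlow _) hκ.le
      _ = (c * κ)⁻¹ * ∫ y in cylSet T 0 r₁, ‖rel T (F.lift u) y‖ ∂ν := integral_const_mul _ _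
      _ ≤ (c * κ)⁻¹ * I := mul_le_mul_of_nonneg_left hI (by positivity)
  calc ∑ b, ∫ y, |zc F u κ r₁ b y| ∂ν ≤ ∑ _b : Fin n, (c * κ)⁻¹ * I :=
        Finset.sum_le_sum fun b _ => h1 b
    _ = n * ((c * κ)⁻¹ * I) := by simp

/-- integrals with respect to the Hausdorff measure -/
lemma integral_hausdorff (f : REF.E m → ℝ) :
    ∫ x, f x ∂μH[m] = (COORD.hc m : ℝ) * ∫ x, f x := by
  rw [COORD.hausdorff_eq, integral_smul_nnreal_measure]
  rfl

end

end Vale.Agent.P214.S1
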