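import Vale.Agent.P214.S1.W0
import Vale.Agent.P214.S1.Zc

/-!
# P214, block S1: estimates used in the proof of `WIN.S1Stmt`
-/

open Set Filter Topology MeasureTheory Metric
open scoped RealInnerProductSpace ENNReal ContDiff

set_option linter.all false

namespace Vale.Agent.P214.S1

open WIN FV Skel KMS

noncomputable section

variable {E : Type*} [NormedAddCommGroup E] [InnerProductSpace ℝ E] [FiniteDimensional ℝ E]
  [MeasurableSpace E] [BorelSpace E]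
variable {m n : ℕ}

/-- test functions multiplied by the area element -/
theorem exists_test (m n : ℕ) : ∃ ε C : ℝ, 0 < ε ∧ 1 ≤ C ∧
    ∀ (u : Fin n → REF.E m → ℝ) (r r' θ κ M : ℝ) (φ : Fin n → REF.E m → ℝ), Refe ε r u → 0 < θ →
      θ ≤ 1 / 2 → r' + θ ≤ r → 0 ≤ κ → 0 ≤ M → Tst (sW m) r' M φ →
      Tst (sW m) r' (C * κ * θ⁻¹ ^ (sW m) * M)
        (fun b x => φ b x * (κ * √(REF.gm u x).det)) := by
  obtain ⟨ε, C, hε, hC, H⟩ := exists_area_bound m n (sW m)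
  refine ⟨ε, 2 ^ (sW m) * C, hε, ?_, ?_⟩
  · exact one_le_mul_of_one_le_of_one_le (one_le_pow₀ one_le_two) hC
  intro u r r' θ κ M φ hu hθ hθ2 hr hκ hM hφ
  have hK : 1 ≤ θ⁻¹ := (one_le_inv₀ hθ).2 (by linarith)
  have h1 : Tst (sW m) r' (2 ^ (sW m) * (κ * (C * θ⁻¹ ^ (sW m))) * M)
      (fun b x => φ b x * (κ * √(REF.gm u x).det)) := by
    refine tst_mul hφ (contDiff_const.mul (contDiff_area hu.smooth)) (by positivity) ?_ hM
    intro x hx k hk
    have h2 : (fun x => κ * √(REF.gm u x).det) = κ • fun x => √(REF.gm u x).det := rfl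
    have hk' : ((k : ℕ∞) : WithTop ℕ∞) ≤ (∞ : WithTop ℕ∞) := by exact_mod_cast le_top
    rw [h2, iteratedFDeriv_const_smul_apply ((contDiff_area hu.smooth).of_le hk').contDiffAt,
      norm_smul, Real.norm_eq_abs, abs_of_nonneg hκ]
    refine mul_le_mul_of_nonneg_left ?_ hκ
    refine (H u r θ hu hθ hθ2 x (by linarith) k hk).trans ?_
    exact mul_le_mul_of_nonneg_left (pow_le_pow_right₀ hK hk) (by linarith)
  have e : 2 ^ (sW m) * (κ * (C * θ⁻¹ ^ (sW m))) * M = 2 ^ (sW m) * C * κ * θ⁻¹ ^ (sW m) * M := by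
    ring
  rwa [e] at h1

/-- change of the reference in the weak height -/
lemma weak_height_sub {T : Submodule ℝ E} {F : Frame m n T} {u u' φ : Fin n → REF.E m → ℝ}
    {ν : Measure E} {P : E → E →L[ℝ] E} {h R r' : ℝ} (hC : CylStat m T (ball 0 R) h ν P)
    (hr : r' < R) (hu : ∀ a, Continuous (u a)) (hu' : ∀ a, Continuous (u' a))
    (hφ : ∀ a, Continuous (φ a)) (hs : ∀ a x, r' ≤ ‖x‖ → φ a x = 0) :
    ∫ y, ∑ a, φ a (F.xc y) * F.ht u' a y ∂ν = ∫ y, ∑ a, φ a (F.xc y) * F.ht u a y ∂ν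
      - ∫ y, (fun x => ∑ a, (u' a x - u a x) * φ a x) (F.xc y) ∂ν := by
  have hK : IsCompact (closedBall (0:E) r' ) := isCompact_closedBall 0 r'
  have hKG : closedBall (0:E) r' ⊆ ball 0 R := closedBall_subset_ball hr
  have hoff : ∀ y : E, T.starProjection y ∉ closedBall (0:E) r' → ∀ a, φ a (F.xc y) = 0 := by
    intro y hy a
    refine hs a _ ?_
    rw [mem_closedBall_zero_iff, not_le] at hy
    rw [KMS.norm_xc]
    exact hy.le
  have hxc := continuous_xc' F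
  have i1 : Integrable (fun y => ∑ a, φ a (F.xc y) * F.ht u a y) ν := by
    refine hC.integrable ?_ ⟨_, hK, hKG, fun y hy => ?_⟩
    · exact continuous_finset_sum _ fun a _ => ((hφ a).comp hxc).mul (continuous_ht hu a)
    · exact Finset.sum_eq_zero fun a _ => by rw [hoff y hy a, zero_mul]
  have i2 : Integrable (fun y => (fun x => ∑ a, (u' a x - u a x) * φ a x) (F.xc y)) ν := by
    refine hC.integrable ?_ ⟨_, hK, hKG, fun y hy => ?_⟩
    · exact (continuous_finset_sum _ fun a _ => ((hu' a).sub (hu a)).mul (hφ a)).comp hxc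
    · exact Finset.sum_eq_zero fun a _ => by rw [hoff y hy a, mul_zero]
  rw [← integral_sub i1 i2]
  refine integral_congr_ae (Eventually.of_forall fun y => ?_)
  simp only
  rw [← Finset.sum_sub_distrib]
  refine Finset.sum_congr rfl fun a _ => ?_
  unfold Frame.ht
  ring

/-- the energy estimates used for `D` -/
lemma d_est {C₂ C₃ m₀ K H : ℝ} {m : ℕ} (hK : 1 ≤ K) (hH : 0 ≤ H) (hC₂ : 0 ≤ C₂) (hC₃ : 0 ≤ C₃)
    (hm₀ : 0 ≤ m₀) : C₂ * (K ^ 2 * H) + √(C₃ * K ^ m * H) * √(m₀ * (C₂ * (K ^ 2 * H))) ≤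
      (C₂ + √C₃ * √(m₀ * C₂)) * (K ^ (m + 2) * H) := by
  have hK0 : 0 ≤ K := by linarith
  have h1 : √(C₃ * K ^ m * H) ≤ √C₃ * (K ^ m * √H) := by
    rw [Real.sqrt_le_left (by positivity)]
    have e : (√C₃ * (K ^ m * √H)) ^ 2 = C₃ * (K ^ m * K ^ m) * H := by
      rw [mul_pow, mul_pow, Real.sq_sqrt hC₃, Real.sq_sqrt hH]; ring
    rw [e]
    have h2 : K ^ m ≤ K ^ m * K ^ m := by
      have : 1 ≤ K ^ m := one_le_pow₀ hK
      nlinarith
    gcongr
  have h3 : √(m₀ * (C₂ * (K ^ 2 * H))) = √(m₀ * C₂) * (K * √H) := by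
    rw [← mul_assoc, sqrt_split (by positivity) hK0 hH]
  rw [h3]
  have h4 : √(C₃ * K ^ m * H) * (√(m₀ * C₂) * (K * √H)) ≤ √C₃ * √(m₀ * C₂) * (K ^ (m + 2) * H) := by
    calc √(C₃ * K ^ m * H) * (√(m₀ * C₂) * (K * √H))
        ≤ √C₃ * (K ^ m * √H) * (√(m₀ * C₂) * (K * √H)) := by gcongr
      _ = √C₃ * √(m₀ * C₂) * (K ^ m * K * (√H * √H)) := by ring
      _ = √C₃ * √(m₀ * C₂) * (K ^ (m + 1) * H) := by
          rw [Real.mul_self_sqrt hH, ← pow_succ]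
      _ ≤ √C₃ * √(m₀ * C₂) * (K ^ (m + 2) * H) := by
          have : K ^ (m + 1) ≤ K ^ (m + 2) := pow_le_pow_right₀ hK (by omega)
          gcongr
  have h5 : C₂ * (K ^ 2 * H) ≤ C₂ * (K ^ (m + 2) * H) := by
    have : K ^ 2 ≤ K ^ (m + 2) := pow_le_pow_right₀ hK (by omega)
    gcongr
  calc C₂ * (K ^ 2 * H) + √(C₃ * K ^ m * H) * (√(m₀ * C₂) * (K * √H))
      ≤ C₂ * (K ^ (m + 2) * H) + √C₃ * √(m₀ * C₂) * (K ^ (m + 2) * H) := add_le_add h5 h4
    _ = _ := by ring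

lemma rpow_mul_pow {K : ℝ} (hK : 1 ≤ K) (a : ℝ) (k : ℕ) : K ^ a * K ^ k = K ^ (a + (k : ℝ)) := by
  rw [Real.rpow_add (by linarith), Real.rpow_natCast]

/-- the sum of the two error bounds -/
lemma sum_est {cA cD K H : ℝ} {m : ℕ} (hK : 1 ≤ K) (hHs : H ≤ √H)
    (hcA : 0 ≤ cA) (hcD : 0 ≤ cD) :
    cA * √H + cD * (K ^ (m + 2) * H) ≤ (cA + cD) * (K ^ (m + 2) * √H) := by
  have h1 : 1 ≤ K ^ (m + 2) := one_le_pow₀ hK
  have h2 : √H ≤ K ^ (m + 2) * √H := by nlinarith [Real.sqrt_nonneg H]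
  have h3 : K ^ (m + 2) * H ≤ K ^ (m + 2) * √H := mul_le_mul_of_nonneg_left hHs (by linarith)
  rw [add_mul]
  exact add_le_add (mul_le_mul_of_nonneg_left h2 hcA) (mul_le_mul_of_nonneg_left h3 hcD)

/-- the quadratic error -/
lemma quad_est {cA cD K H : ℝ} {m : ℕ} (hK : 1 ≤ K) (hH : 0 ≤ H) (hHs : H ≤ √H)
    (hcA : 0 ≤ cA) (hcD : 0 ≤ cD) :
    cD * (K ^ (m + 2) * H) + (cA * √H + cD * (K ^ (m + 2) * H)) ^ 2 ≤
      (cD + (cA + cD) ^ 2) * (K ^ (2 * (m + 2)) * H) := by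
  have h0 : 0 ≤ cA * √H + cD * (K ^ (m + 2) * H) := by positivity
  have h1 := pow_le_pow_left₀ h0 (sum_est (m := m) hK hHs hcA hcD) 2
  have e1 : ((cA + cD) * (K ^ (m + 2) * √H)) ^ 2 = (cA + cD) ^ 2 * (K ^ (2 * (m + 2)) * H) := by
    rw [mul_pow, mul_pow, Real.sq_sqrt hH, ← pow_mul, mul_comm (m + 2) 2]
  have h2 : cD * (K ^ (m + 2) * H) ≤ cD * (K ^ (2 * (m + 2)) * H) := by
    have : K ^ (m + 2) ≤ K ^ (2 * (m + 2)) := pow_le_pow_right₀ hK (by omega)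
    gcongr
  rw [e1] at h1
  rw [add_mul]
  exact add_le_add h2 h1

/-- the case without normal directions -/
lemma hE_eq_zero {T : Submodule ℝ E} (F : Frame m 0 T) (u : Fin 0 → REF.E m → ℝ)
    (ν : Measure E) (r : ℝ) : hE T (F.lift u) ν r = 0 := by
  have h0 : ∀ y, rel T (F.lift u) y = 0 := by
    intro y
    have h1 : rel T (F.lift u) y ∈ Tᗮ := by
      refine Tᗮ.sub_mem ?_ ?_
      · rw [FV.co_eq]; exact Submodule.starProjection_apply_mem _ _
      · unfold Frame.lift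
        simp
    have h2 := sum_bN F h1
    rw [h2]
    simp
  unfold hE
  simp [h0]

end

end Vale.Agent.P214.S1
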