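import Vale.Agent.P214.S1.Est

/-!
# P214, block S1: items (1)-(5) of STEP (`WIN.S1Stmt`)
-/

open Set Filter Topology MeasureTheory Metric
open scoped RealInnerProductSpace ENNReal ContDiff

set_option linter.all false

namespace Vale.Agent.P214.S1

open WIN FV Skel KMS

noncomputable section

variable {E : Type*} [NormedAddCommGroup E] [InnerProductSpace ℝ E] [FiniteDimensional ℝ E]
  [MeasurableSpace E] [BorelSpace E]
variable {m n : ℕ}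

/-- the `L¹` norm and the weak equation of the renormalised height -/
theorem ad_bounds (hn : 0 < n) (hA : AvgStmt E m n) (hCa : CaccStmt E m n)
    (hSu : SupStmt E m n) (Q : ℕ) {κ : ℝ} (hκ0 : 0 < κ) :
    ∃ ε cA cD : ℝ, 0 < ε ∧ 0 ≤ cA ∧ 0 ≤ cD ∧ ∀ (T : Submodule ℝ E) (F : Frame m n T)
      (u : Fin n → REF.E m → ℝ) (r θ h H : ℝ) (ν : Measure E) (P : E → E →L[ℝ] E), Refe ε r u →
      3 / 32 ≤ r → r ≤ 3 / 16 → 0 < θ → θ ≤ 1 / 640 → IntCyl m Q T 0 (3 / 8) h ε ν P →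
      H = hE T (F.lift u) ν r →
      (∀ a, Integrable (zc F u κ (r - θ) a) ν) ∧
      ∑ b, ∫ y, |zc F u κ (r - θ) b y| ∂ν ≤ cA * √H ∧
      ∀ (φ : Fin n → REF.E m → ℝ) (M : ℝ), Tst 2 (r - θ - θ) M φ →
      |∫ y, ∑ b, zc F u κ (r - θ) b y * Ltw u φ b (F.xc y) ∂ν| ≤
        cD * (θ⁻¹ ^ (m + 2) * H) * M := by
  obtain ⟨ε₂, C₂, hε₂, hC₂, H2⟩ := hCa
  obtain ⟨ε₃, C₃, hε₃, hC₃, H3⟩ := hSu
  obtain ⟨ε₄, C₄, hε₄, hC₄, H4⟩ := hA
  obtain ⟨c, hc, hlow⟩ := exists_area_lower m n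
  have hom : 0 ≤ om m := ENNReal.toReal_nonneg
  obtain ⟨m₀, hm₀⟩ : ∃ m₀ : ℝ, m₀ = Q * om m + 1 := ⟨_, rfl⟩
  have hm₀0 : 0 ≤ m₀ := by rw [hm₀]; positivity
  obtain ⟨ε, hεdef⟩ : ∃ ε : ℝ, ε = min (min ε₂ ε₃) (min ε₄ (((n:ℝ) + 1)⁻¹)) := ⟨_, rfl⟩
  have hε : 0 < ε := by
    rw [hεdef]
    exact lt_min (lt_min hε₂ hε₃) (lt_min hε₄ (by positivity))
  refine ⟨ε, n * ((c * κ)⁻¹ * √m₀), κ⁻¹ * (C₄ * (C₂ + √C₃ * √(m₀ * C₂))), hε, by positivity,
    by positivity, ?_⟩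
  intro T F u r θ h H ν P hu hr1 hr2 hθ hθ2 hI hH
  have d2 : ε ≤ ε₂ := by rw [hεdef]; exact (min_le_left _ _).trans (min_le_left _ _)
  have d3 : ε ≤ ε₃ := by rw [hεdef]; exact (min_le_left _ _).trans (min_le_right _ _)
  have d4 : ε ≤ ε₄ := by rw [hεdef]; exact (min_le_right _ _).trans (min_le_left _ _)
  have d6 : ε ≤ ((n:ℝ) + 1)⁻¹ := by rw [hεdef]; exact (min_le_right _ _).trans (min_le_right _ _)
  have d7 : ε ≤ 1 := by
    refine d6.trans (inv_le_one_of_one_le₀ ?_)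
    have : (0:ℝ) ≤ n := Nat.cast_nonneg n
    linarith
  haveI := hI.cyl.fin
  obtain ⟨K, hK⟩ : ∃ K : ℝ, K = θ⁻¹ := ⟨_, rfl⟩
  rw [← hK]
  have hK1 : 1 ≤ K := by
    rw [hK]
    exact (one_le_inv₀ hθ).2 (by linarith)
  have hH0 : 0 ≤ H := by rw [hH]; exact hE_nonneg' _ _ _ _
  have hcyl : CylStat m T (ball 0 r) h ν P :=
    hI.cyl.mono isOpen_ball (ball_subset_ball (by linarith))
  have hfd := fderiv_lift_le_one (F := F) hu d6
  have hcac : eE T (F.lift u) ν P 0 (r - θ) ≤ C₂ * (K ^ 2 * H) := by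
    have := H2 T F u r θ h ν P (hu.mono' d2) hr2 hθ (by linarith) hcyl
    rw [← hH, ← hK] at this
    rwa [← mul_assoc]
  obtain ⟨δ', hI'⟩ := intCyl_smaller hI (ρ := r) (by linarith) (by linarith)
  have hsup : ∀ᵐ y ∂ν, y ∈ cylSet T 0 (r - θ) → ‖rel T (F.lift u) y‖ ≤ √(C₃ * K ^ m * H) := by
    filter_upwards [Measure.support_mem_ae (μ := ν)] with y hy hyr
    have hyr' : ‖T.starProjection y‖ < r - θ := by
      have : T.starProjection y ∈ ball (0:E) (r - θ) := hyr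
      rwa [mem_ball_zero_iff] at this
    have h1 := H3 T F u Q r θ h δ' ν P (hu.mono' d3) hr2 hθ (by linarith) hI' y hy hyr'.le
    rw [← hH, ← hK] at h1
    exact Real.le_sqrt_of_sq_le h1
  have hG : closedBall (0:E) (r - θ) ⊆ ball 0 (3 / 8) := closedBall_subset_ball (by linarith)
  have hGr : closedBall (0:E) r ⊆ ball 0 (3 / 8) := closedBall_subset_ball (by linarith)
  have hmono : hE T (F.lift u) ν (r - θ) ≤ H := by
    rw [hH]
    unfold hE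
    refine setIntegral_mono_set (integrableOn_cont hI.cyl
      ((ref_lift (F := F) hu.smooth).contDiff_rel.continuous.norm.pow 2) hGr)
      (Eventually.of_forall fun y => sq_nonneg _) ?_
    exact Eventually.of_forall (preimage_mono (f := T.starProjection)
      (ball_subset_ball (by linarith)))
  have hmass : ν.real (cylSet T 0 (r - θ)) ≤ m₀ := by
    rw [hm₀]
    exact mass_le hI (by norm_num) d7 (by linarith)
  have hnorm : ∫ y in cylSet T 0 (r - θ), ‖rel T (F.lift u) y‖ ∂ν ≤ √m₀ * √H := by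
    refine (int_norm_le hI.cyl hu.smooth hG hmass).trans ?_
    rw [← Real.sqrt_mul hm₀0]
    exact Real.sqrt_le_sqrt (mul_le_mul_of_nonneg_left hmono hm₀0)
  refine ⟨fun a => integrable_zc (F := F) hI.cyl hu.smooth hG a, ?_, ?_⟩
  · have h1 := sum_abs_zc_le (F := F) (κ := κ) hI.cyl hu.smooth hG hκ0 hc
      (fun x => hlow _ (norm_gr_le (hu.mono' d7) le_rfl x)) hnorm
    refine h1.trans (le_of_eq ?_)
    ring
  · intro φ M hφ
    have hM0 : 0 ≤ M := (norm_nonneg _).trans (hφ.bd ⟨0, hn⟩ 0 (by norm_num) 0)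
    have e1 : ∀ y, ∑ b, zc F u κ (r - θ) b y * Ltw u φ b (F.xc y) =
        κ⁻¹ * ∑ b, F.ht u b y / √(REF.gm u (F.xc y)).det * Ltw u φ b (F.xc y) := fun y =>
      zc_ltw hκ0.ne' hφ.supp (by linarith) y
    simp only [e1]
    rw [integral_const_mul, abs_mul, abs_of_pos (inv_pos.2 hκ0)]
    have h1 := H4 T F u r (r - θ - θ) h ν P (hu.mono' d4) (by linarith) hr2 hcyl φ M hφ
    have hsub : cylSet T (0:E) (r - θ - θ) ⊆ cylSet T 0 (r - θ) :=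
      preimage_mono (f := T.starProjection) (ball_subset_ball (by linarith))
    have hcac' : eE T (F.lift u) ν P 0 (r - θ - θ) ≤ C₂ * (K ^ 2 * H) := by
      refine le_trans ?_ hcac
      unfold eE
      refine setIntegral_mono_set (integrable_gsq (F := F) hI.cyl hu.smooth hfd).integrableOn ?_
        (Eventually.of_forall hsub)
      refine ae_restrict_of_ae ?_
      filter_upwards [gsq_bdd (F := F) hI.cyl hu.smooth hfd] with y hy
      exact hy.1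
    have hmass' : ν.real (cylSet T 0 (r - θ - θ)) ≤ m₀ := (measureReal_mono hsub).trans hmass
    have h2 := int_add_mul_le (F := F) hI.cyl hu.smooth hfd hmass' hcac'
      (Real.sqrt_nonneg (C₃ * K ^ m * H)) (by
        filter_upwards [hsup] with y hy hyr
        exact hy (hsub hyr))
    have h3 := h2.trans (d_est (m := m) hK1 hH0 hC₂ hC₃ hm₀0)
    calc κ⁻¹ * |∫ y, ∑ b, F.ht u b y / √(REF.gm u (F.xc y)).det * Ltw u φ b (F.xc y) ∂ν|
        ≤ κ⁻¹ * (C₄ * M * ((C₂ + √C₃ * √(m₀ * C₂)) * (K ^ (m + 2) * H))) := by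
          refine mul_le_mul_of_nonneg_left (h1.trans ?_) (inv_pos.2 hκ0).le
          exact mul_le_mul_of_nonneg_left h3 (mul_nonneg hC₄ hM0)
      _ = κ⁻¹ * (C₄ * (C₂ + √C₃ * √(m₀ * C₂))) * (K ^ (m + 2) * H) * M := by ring

/-- the linear step -/
theorem lin_step (hn : 0 < n) (hL : LinwStmt E m n) (hA : AvgStmt E m n) (hCa : CaccStmt E m n)
    (hSu : SupStmt E m n) (Q : ℕ) {κ : ℝ} (hκ0 : 0 < κ) :
    ∃ ε C p q : ℝ, 0 < ε ∧ 0 ≤ C ∧ ∀ (T : Submodule ℝ E) (F : Frame m n T)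
      (u : Fin n → REF.E m → ℝ) (r θ h H : ℝ) (ν : Measure E) (P : E → E →L[ℝ] E), Refe ε r u →
      3 / 32 ≤ r → r ≤ 3 / 16 → 0 < θ → θ ≤ 1 / 640 → IntCyl m Q T 0 (3 / 8) h ε ν P →
      H = hE T (F.lift u) ν r → √H ≤ 1 → C * θ⁻¹ ^ p * √H ≤ ε →
      ∃ u' : Fin n → REF.E m → ℝ, (∀ a, ContDiff ℝ ∞ (u' a)) ∧
        (∀ a, ∀ k ≤ 2 * m + 1, ∀ x, ‖x‖ < r - 6 * θ →
          ‖iteratedFDeriv ℝ k (fun x => u' a x - u a x) x‖ ≤ C * θ⁻¹ ^ p * √H) ∧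
        (∀ a x, ‖x‖ < r - 6 * θ → REF.Mop u' a x = 0) ∧
        ∀ (φ : Fin n → REF.E m → ℝ) (M : ℝ), 0 ≤ M → Tst (sW m) (r - 6 * θ) M φ →
          |∫ y, ∑ b, zc F u κ (r - θ) b y * φ b (F.xc y) ∂ν - ∫ x, ∑ b, (u' b x - u b x) * φ b x|
            ≤ C * θ⁻¹ ^ q * H * M := by
  obtain ⟨ε₁, C₁, hε₁, hC₁, HL⟩ := hL
  obtain ⟨ε₂, cA, cD, hε₂, hcA0, hcD0, HA⟩ := ad_bounds hn hA hCa hSu Q hκ0
  obtain ⟨C, hC⟩ : ∃ C : ℝ, C = C₁ * (cA + cD) + C₁ * (cD + (cA + cD) ^ 2) := ⟨_, rfl⟩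
  have hCa0 : 0 ≤ C₁ * (cA + cD) := by positivity
  have hCb0 : 0 ≤ C₁ * (cD + (cA + cD) ^ 2) := by positivity
  refine ⟨min ε₁ ε₂, C, C₁ + ((m + 2 : ℕ) : ℝ), C₁ + ((2 * (m + 2) : ℕ) : ℝ), lt_min hε₁ hε₂,
    by rw [hC]; linarith, ?_⟩
  intro T F u r θ h H ν P hu hr1 hr2 hθ hθ2 hI hH hs1 hsm
  have hH0 : 0 ≤ H := by rw [hH]; exact hE_nonneg' _ _ _ _
  have hHs : H ≤ √H := by
    have h1 := Real.sq_sqrt hH0
    nlinarith [Real.sqrt_nonneg H]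
  obtain ⟨a1, a2, a3⟩ := HA T F u r θ h H ν P (hu.mono' (min_le_right _ _)) hr1 hr2 hθ hθ2
    ⟨hI.cyl, hI.mem, hI.pos, hI.int, hI.mass.trans
      (mul_le_mul_of_nonneg_right (min_le_right _ _) (by positivity))⟩ hH
  haveI := hI.cyl.fin
  obtain ⟨K, hK⟩ : ∃ K : ℝ, K = θ⁻¹ := ⟨_, rfl⟩
  rw [← hK] at hsm a3 ⊢
  have hK1 : 1 ≤ K := by
    rw [hK]
    exact (one_le_inv₀ hθ).2 (by linarith)
  have hK0 : 0 < K := by linarith
  have hpow : 0 ≤ K ^ (C₁ + ((m + 2 : ℕ) : ℝ)) := Real.rpow_nonneg hK0.le _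
  have hZle : C₁ * K ^ C₁ * (cA * √H + cD * (K ^ (m + 2) * H)) ≤
      C * K ^ (C₁ + ((m + 2 : ℕ) : ℝ)) * √H := by
    have h1 : 0 ≤ C₁ * K ^ C₁ := by positivity
    calc C₁ * K ^ C₁ * (cA * √H + cD * (K ^ (m + 2) * H))
        ≤ C₁ * K ^ C₁ * ((cA + cD) * (K ^ (m + 2) * √H)) :=
          mul_le_mul_of_nonneg_left (sum_est (m := m) hK1 hHs hcA0 hcD0) h1
      _ = C₁ * (cA + cD) * (K ^ C₁ * K ^ (m + 2)) * √H := by ring
      _ = C₁ * (cA + cD) * K ^ (C₁ + ((m + 2 : ℕ) : ℝ)) * √H := by rw [rpow_mul_pow hK1]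
      _ ≤ _ := by
          refine mul_le_mul_of_nonneg_right (mul_le_mul_of_nonneg_right ?_ hpow)
            (Real.sqrt_nonneg _)
          rw [hC]; linarith
  obtain ⟨u', hu'1, hu'2, hu'3, hu'4⟩ := HL u (r - θ) θ (cA * √H) (cD * (K ^ (m + 2) * H)) ν F.xc
    (zc F u κ (r - θ)) ((hu.mono' (min_le_left _ _)).mono_r (by linarith)) (by linarith)
    (by linarith) hθ hθ2 inferInstance (continuous_xc' F).measurable a1
    (Eventually.of_forall fun y a hy => by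
      by_contra hcon
      refine hy ?_
      unfold zc
      refine indicator_of_notMem ?_ _
      rwa [mem_cyl_iff F])
    a2 (by positivity) a3 (by rw [← hK]; exact hZle.trans (hsm.trans (min_le_left _ _)))
  rw [← hK] at hu'2 hu'4
  refine ⟨u', hu'1, ?_, ?_, ?_⟩
  · intro a k hk x hx
    exact (hu'2 a k hk x (by linarith)).trans hZle
  · intro a x hx
    exact hu'3 a x (by linarith)
  · intro φ M hM0 hφ
    have h2 := hu'4 φ M ⟨hφ.smooth, fun a x hx => hφ.supp a x (by linarith),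
      fun a k hk => hφ.bd a k (hk.trans (by unfold sW; omega))⟩
    refine h2.trans (mul_le_mul_of_nonneg_right ?_ hM0)
    have h1 : 0 ≤ C₁ * K ^ C₁ := by positivity
    have hpow' : 0 ≤ K ^ (C₁ + ((2 * (m + 2) : ℕ) : ℝ)) := Real.rpow_nonneg hK0.le _
    calc C₁ * K ^ C₁ * (cD * (K ^ (m + 2) * H) + (cA * √H + cD * (K ^ (m + 2) * H)) ^ 2)
        ≤ C₁ * K ^ C₁ * ((cD + (cA + cD) ^ 2) * (K ^ (2 * (m + 2)) * H)) :=
          mul_le_mul_of_nonneg_left (quad_est hK1 hH0 hHs hcA0 hcD0) h1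
      _ = C₁ * (cD + (cA + cD) ^ 2) * (K ^ C₁ * K ^ (2 * (m + 2))) * H := by ring
      _ = C₁ * (cD + (cA + cD) ^ 2) * K ^ (C₁ + ((2 * (m + 2) : ℕ) : ℝ)) * H := by
          rw [rpow_mul_pow hK1]
      _ ≤ _ := by
          refine mul_le_mul_of_nonneg_right (mul_le_mul_of_nonneg_right ?_ hpow') hH0
          rw [hC]; linarith

end

end Vale.Agent.P214.S1
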