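import Vale.Agent.P214.S1.Lin

/-!
# P214, block S1: items (1)-(5) of STEP (`WIN.S1Stmt`)
-/

open Set Filter Topology MeasureTheory Metric
open scoped RealInnerProductSpace ENNReal ContDiff

set_option linter.all false

namespace Vale.Agent.P214.S1

open WIN FV Skel KMS

noncomputable section

variable {E : Type*} [NormedAddCommGroup E] [InnerProductSpace ℝ E] [FiniteDimensional ℝ E]
  [MeasurableSpace E] [BorelSpace E]
variable {m n : ℕ}

/-- the function tested in (W0) -/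
def psi (u u' φ : Fin n → REF.E m → ℝ) (x : REF.E m) : ℝ := ∑ b, (u' b x - u b x) * φ b x

lemma abs_psi_le {u u' φ : Fin n → REF.E m → ℝ} {r' Z M : ℝ} (hZ0 : 0 ≤ Z) (hM0 : 0 ≤ M)
    (hZ : ∀ b x, ‖x‖ < r' → |u' b x - u b x| ≤ Z) (hφ : ∀ b x, |φ b x| ≤ M)
    (hs : ∀ b x, r' ≤ ‖x‖ → φ b x = 0) (x : REF.E m) : |psi u u' φ x| ≤ n * (Z * M) := by
  unfold psi
  refine (Finset.abs_sum_le_sum_abs _ _).trans ?_
  have h1 : ∀ b ∈ (Finset.univ : Finset (Fin n)), |(u' b x - u b x) * φ b x| ≤ Z * M := by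
    intro b _
    by_cases hx : ‖x‖ < r'
    · rw [abs_mul]
      exact mul_le_mul (hZ b x hx) (hφ b x) (abs_nonneg _) hZ0
    · rw [hs b x (not_lt.1 hx), mul_zero, abs_zero]
      exact mul_nonneg hZ0 hM0
  refine (Finset.sum_le_sum h1).trans (le_of_eq ?_)
  simp

/-- assembling the two comparisons -/
lemma weak_final {T : Submodule ℝ E} {F : Frame m n T} {u u' φ : Fin n → REF.E m → ℝ}
    {ν : Measure E} {P : E → E →L[ℝ] E} {h R r' r₁ κ X Y : ℝ} {Q : ℕ}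
    (hC : CylStat m T (ball 0 R) h ν P) (hr : r' < R) (hr₁ : r' ≤ r₁) (hκ : κ = Q * COORD.hc m)
    (hκ0 : 0 < κ) (hu : ∀ a, Continuous (u a)) (hu' : ∀ a, Continuous (u' a))
    (hφ : ∀ a, Continuous (φ a)) (hs : ∀ a x, r' ≤ ‖x‖ → φ a x = 0)
    (hX : |∫ y, ∑ b, zc F u κ r₁ b y * (φ b (F.xc y) * (κ * √(REF.gm u (F.xc y)).det)) ∂ν -
      ∫ x, ∑ b, (u' b x - u b x) * (φ b x * (κ * √(REF.gm u x).det))| ≤ X)
    (hY : |∫ y, psi u u' φ (F.xc y) ∂ν - Q * ∫ x, psi u u' φ x * √(REF.gm u x).det ∂μH[m]| ≤ Y) :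
    |∫ y, ∑ a, φ a (F.xc y) * F.ht u' a y ∂ν| ≤ X + Y := by
  have e1 : ∀ y, ∑ b, zc F u κ r₁ b y * (φ b (F.xc y) * (κ * √(REF.gm u (F.xc y)).det)) =
      ∑ b, φ b (F.xc y) * F.ht u b y := fun y =>
    zc_test hκ0.ne' hs hr₁ y
  have e2 : ∫ x, ∑ b, (u' b x - u b x) * (φ b x * (κ * √(REF.gm u x).det)) =
      Q * ∫ x, psi u u' φ x * √(REF.gm u x).det ∂μH[m] := by
    rw [integral_hausdorff, ← mul_assoc, ← hκ, ← integral_const_mul]
    refine integral_congr_ae (Eventually.of_forall fun x => ?_)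
    simp only [psi]
    rw [Finset.sum_mul, Finset.mul_sum]
    refine Finset.sum_congr rfl fun b _ => ?_
    ring
  simp only [e1] at hX
  rw [e2] at hX
  have hsub := weak_height_sub (F := F) (u := u) (u' := u') (φ := φ) hC hr hu hu' hφ hs
  have e3 : (fun x => ∑ a, (u' a x - u a x) * φ a x) = psi u u' φ := rfl
  rw [e3] at hsub
  rw [hsub]
  have htri := abs_sub (∫ y, ∑ a, φ a (F.xc y) * F.ht u a y ∂ν -
    Q * ∫ x, psi u u' φ x * √(REF.gm u x).det ∂μH[m])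
    (∫ y, psi u u' φ (F.xc y) ∂ν - Q * ∫ x, psi u u' φ x * √(REF.gm u x).det ∂μH[m])
  rw [sub_sub_sub_cancel_right] at htri
  exact htri.trans (add_le_add hX hY)

/-- **[S1]** items (1)-(5) of STEP, one or more normal directions -/
theorem s1_pos (hn : 0 < n) (hL : LinwStmt E m n) (hA : AvgStmt E m n) (hCa : CaccStmt E m n)
    (hSu : SupStmt E m n) (hW : IntWStmt E m n) : S1Stmt E m n := by
  intro Q hQ
  have hQ0 : (0:ℝ) < Q := by exact_mod_cast hQ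
  have hhc : (0:ℝ) < (COORD.hc m : ℝ) := COORD.hc_pos m
  obtain ⟨κ, hκ⟩ : ∃ κ : ℝ, κ = Q * COORD.hc m := ⟨_, rfl⟩
  have hκ0 : 0 < κ := by rw [hκ]; exact mul_pos hQ0 hhc
  obtain ⟨ε₀, C₀, hε₀, hC₀, H0⟩ := w0 hW hCa hSu Q
  obtain ⟨ε₁, C₁, p, q, hε₁, hC₁, H1⟩ := lin_step hn hL hA hCa hSu Q hκ0
  obtain ⟨ε₅, C₅, hε₅, hC₅, H5⟩ := exists_test m n
  have hC5 : 0 ≤ C₅ := by linarith
  have hC00 : 0 ≤ C₀ := by linarith
  obtain ⟨C, hC⟩ : ∃ C : ℝ, C = 1 + C₀ + C₁ + |p| + |q + (sW m : ℕ)| + |C₀ + p| +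
    (C₁ * (C₅ * κ) + C₀ * (n * C₁)) := ⟨_, rfl⟩
  have hc1 : 0 ≤ C₁ * (C₅ * κ) := by positivity
  have hc2 : 0 ≤ C₀ * (n * C₁) := by positivity
  have hp1 := abs_nonneg p
  have hp2 := abs_nonneg (q + (sW m : ℕ))
  have hp3 := abs_nonneg (C₀ + p)
  have hC1 : 1 ≤ C := by rw [hC]; linarith
  have g1 : C₀ ≤ C := by rw [hC]; linarith
  have g2 : C₁ ≤ C := by rw [hC]; linarith
  have g3 : p ≤ C := by rw [hC]; linarith [le_abs_self p]
  have g4 : q + (sW m : ℕ) ≤ C := by rw [hC]; linarith [le_abs_self (q + (sW m : ℕ))]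
  have g5 : C₀ + p ≤ C := by rw [hC]; linarith [le_abs_self (C₀ + p)]
  have g6 : C₁ * (C₅ * κ) + C₀ * (n * C₁) ≤ C := by rw [hC]; linarith
  clear hC
  refine ⟨min (min ε₀ ε₁) (min ε₅ 1), C, lt_min (lt_min hε₀ hε₁) (lt_min hε₅ one_pos), hC1, ?_⟩
  intro T F u r θ h H ν P hu hr1 hr2 hθ hθ2 hh hI hexc hH hsm
  have d0 : min (min ε₀ ε₁) (min ε₅ 1) ≤ ε₀ := (min_le_left _ _).trans (min_le_left _ _)
  have d1 : min (min ε₀ ε₁) (min ε₅ 1) ≤ ε₁ := (min_le_left _ _).trans (min_le_right _ _)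
  have d5 : min (min ε₀ ε₁) (min ε₅ 1) ≤ ε₅ := (min_le_right _ _).trans (min_le_left _ _)
  have d7 : min (min ε₀ ε₁) (min ε₅ 1) ≤ 1 := (min_le_right _ _).trans (min_le_right _ _)
  obtain ⟨K, hK⟩ : ∃ K : ℝ, K = θ⁻¹ := ⟨_, rfl⟩
  rw [← hK] at hsm ⊢
  have hK1 : 1 ≤ K := by
    rw [hK]
    exact (one_le_inv₀ hθ).2 (by linarith)
  have hK0 : 0 < K := by linarith
  have hH0 : 0 ≤ H := by rw [hH]; exact hE_nonneg' _ _ _ _
  have hKC : 1 ≤ K ^ C := Real.one_le_rpow hK1 (by linarith)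
  have hs1 : √H ≤ 1 := by
    have h1 : √H ≤ C * K ^ C * √H := by
      have : 1 ≤ C * K ^ C := one_le_mul_of_one_le_of_one_le hC1 hKC
      nlinarith [Real.sqrt_nonneg H]
    linarith
  have hW0 := H0 T F u r θ h H ν P (hu.mono' d0) hr1 hr2 hθ hθ2
    ⟨hI.cyl, hI.mem, hI.pos, hI.int, hI.mass.trans (mul_le_mul_of_nonneg_right d0 (by positivity))⟩
    (hexc.trans d0) hH (by
      rw [← hK]
      exact (mul_le_mul_of_nonneg_right (loss hK1 hC00 g1 g1) (Real.sqrt_nonneg _)).trans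
        (hsm.trans d0))
  rw [← hK] at hW0
  refine ⟨?_, ?_⟩
  · intro ψ M hψ hψ0 hψM
    have hM0 : 0 ≤ M := (abs_nonneg _).trans (hψM 0)
    refine (hW0 ψ M hψ (fun x hx => hψ0 x (by linarith)) hψM).trans ?_
    exact mul_le_mul_of_nonneg_right (mul_le_mul_of_nonneg_right (loss hK1 hC00 g1 g1)
      (Real.sqrt_nonneg _)) hM0
  have hZC : C₁ * K ^ p * √H ≤ C * K ^ C * √H :=
    mul_le_mul_of_nonneg_right (loss hK1 hC₁ g2 g3) (Real.sqrt_nonneg _)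
  obtain ⟨u', hu'1, hu'2, hu'3, hu'4⟩ := H1 T F u r θ h H ν P (hu.mono' d1) hr1 hr2 hθ hθ2
    ⟨hI.cyl, hI.mem, hI.pos, hI.int, hI.mass.trans (mul_le_mul_of_nonneg_right d1 (by positivity))⟩
    hH hs1 (by rw [← hK]; exact hZC.trans (hsm.trans d1))
  rw [← hK] at hu'2 hu'4
  refine ⟨u', hu'1, fun a k hk x hx => (hu'2 a k hk x (by linarith)).trans hZC,
    fun a x hx => hu'3 a x (by linarith), ?_⟩
  intro φ M hφ
  have hM0 : 0 ≤ M := (norm_nonneg _).trans (hφ.bd ⟨0, hn⟩ 0 (Nat.zero_le _) 0)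
  have hφ0 : ∀ a x, |φ a x| ≤ M := by
    intro a x
    have := hφ.bd a 0 (Nat.zero_le _) x
    rwa [norm_iteratedFDeriv_zero, Real.norm_eq_abs] at this
  have hKp : 0 ≤ K ^ p := Real.rpow_nonneg hK0.le _
  have hZ0 : 0 ≤ C₁ * K ^ p * √H := by positivity
  have hψc : Continuous (psi u u' φ) := continuous_finset_sum _ fun b _ =>
    ((hu'1 b).continuous.sub (hu.smooth b).continuous).mul (hφ.smooth b).continuous
  have hψ0 : ∀ x, r - 2 * θ ≤ ‖x‖ → psi u u' φ x = 0 := fun x hx =>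
    Finset.sum_eq_zero fun b _ => by rw [hφ.supp b x (by linarith), mul_zero]
  have hψM := abs_psi_le (u := u) (u' := u') (φ := φ) (r' := r - 8 * θ) hZ0 hM0
    (fun b x hx => by
      have h2 := hu'2 b 0 (Nat.zero_le _) x (by linarith)
      rwa [norm_iteratedFDeriv_zero, Real.norm_eq_abs] at h2) hφ0 hφ.supp
  have htest := H5 u r (r - 8 * θ) θ κ M φ (hu.mono' d5) hθ (by linarith) (by linarith)
    hκ0.le hM0 hφ
  rw [← hK] at htest
  have hX := hu'4 _ _ (by positivity) (⟨htest.smooth, fun a x hx => htest.supp a x (by linarith),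
    htest.bd⟩ : Tst (sW m) (r - 6 * θ) (C₅ * κ * K ^ (sW m) * M)
        (fun b x => φ b x * (κ * √(REF.gm u x).det)))
  have hY := hW0 (psi u u' φ) _ hψc hψ0 hψM
  refine (weak_final hI.cyl (show r - 8 * θ < 3 / 8 by linarith)
    (show r - 8 * θ ≤ r - θ by linarith) hκ hκ0 (fun a => (hu.smooth a).continuous)
    (fun a => (hu'1 a).continuous) (fun a => (hφ.smooth a).continuous) hφ.supp hX hY).trans ?_
  have eX : C₁ * K ^ q * H * (C₅ * κ * K ^ (sW m) * M) =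
      C₁ * (C₅ * κ) * K ^ (q + (sW m : ℕ)) * (H * M) := by
    rw [← rpow_mul_pow hK1]; ring
  have eY : C₀ * K ^ C₀ * √H * (n * (C₁ * K ^ p * √H * M)) =
      C₀ * (n * C₁) * K ^ (C₀ + p) * (H * M) := by
    rw [Real.rpow_add hK0]
    calc C₀ * K ^ C₀ * √H * (n * (C₁ * K ^ p * √H * M)) =
        C₀ * (n * C₁) * (K ^ C₀ * K ^ p) * ((√H * √H) * M) := by ring
      _ = _ := by rw [Real.mul_self_sqrt hH0]
  rw [eX, eY, ← add_mul, mul_assoc (C * K ^ C)]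
  refine mul_le_mul_of_nonneg_right ?_ (mul_nonneg hH0 hM0)
  have h6 : K ^ (q + (sW m : ℕ)) ≤ K ^ C := Real.rpow_le_rpow_of_exponent_le hK1 g4
  have h7 : K ^ (C₀ + p) ≤ K ^ C := Real.rpow_le_rpow_of_exponent_le hK1 g5
  calc C₁ * (C₅ * κ) * K ^ (q + (sW m : ℕ)) + C₀ * (n * C₁) * K ^ (C₀ + p)
      ≤ C₁ * (C₅ * κ) * K ^ C + C₀ * (n * C₁) * K ^ C :=
        add_le_add (mul_le_mul_of_nonneg_left h6 hc1) (mul_le_mul_of_nonneg_left h7 hc2)
    _ = (C₁ * (C₅ * κ) + C₀ * (n * C₁)) * K ^ C := by ring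
    _ ≤ C * K ^ C := mul_le_mul_of_nonneg_right g6 (by linarith)

/-- **[S1]** items (1)-(5) of STEP -/
theorem s1 (hL : 0 < n → LinwStmt E m n) (hA : AvgStmt E m n) (hCa : CaccStmt E m n)
    (hSu : SupStmt E m n) (hW : IntWStmt E m n) : S1Stmt E m n := by
  rcases Nat.eq_zero_or_pos n with hn | hn
  · subst hn
    intro Q hQ
    obtain ⟨ε₀, C₀, hε₀, hC₀, H0⟩ := w0 hW hCa hSu Q
    refine ⟨ε₀, C₀, hε₀, hC₀, ?_⟩
    intro T F u r θ h H ν P hu hr1 hr2 hθ hθ2 hh hI hexc hH hsm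
    refine ⟨fun ψ M hψ hψ0 hψM => H0 T F u r θ h H ν P hu hr1 hr2 hθ hθ2 hI hexc hH hsm ψ M hψ
      (fun x hx => hψ0 x (by linarith)) hψM, u, fun a => a.elim0, fun a => a.elim0,
      fun a => a.elim0, ?_⟩
    intro φ M hφ
    rw [hE_eq_zero] at hH
    simp [hH]
  · exact s1_pos hn (hL hn) hA hCa hSu hW

end

end Vale.Agent.P214.S1
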