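import Vale.Agent.P214.S1.Basic

/-!
# P214, block S1: item (W0), mass against the area of the reference
-/

open Set Filter Topology MeasureTheory Metric
open scoped RealInnerProductSpace ENNReal ContDiff

set_option linter.all false

namespace Vale.Agent.P214.S1

open WIN FV Skel KMS

lemma loss {K C c p : ℝ} (hK : 1 ≤ K) (hc : 0 ≤ c) (h1 : c ≤ C) (h2 : p ≤ C) :
    c * K ^ p ≤ C * K ^ C :=
  mul_le_mul h1 (Real.rpow_le_rpow_of_exponent_le hK h2) (Real.rpow_nonneg (by linarith) _)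
    (hc.trans h1)

lemma sqrt_split {a K H : ℝ} (ha : 0 ≤ a) (hK : 0 ≤ K) (hH : 0 ≤ H) :
    √(a * (K ^ 2 * H)) = √a * (K * √H) := by
  rw [Real.sqrt_mul ha, Real.sqrt_mul (sq_nonneg K), Real.sqrt_sq hK]

/-- from `C K^C √H ≤ ε` to a sup bound `≤ ε θ` -/
lemma sup_small {C Cs K H θ ε v : ℝ} {m : ℕ} (hθ : 0 < θ) (hK : K = θ⁻¹) (hK1 : 1 ≤ K)
    (hH : 0 ≤ H) (hCs : 0 ≤ Cs) (hC1 : Cs + 1 ≤ C) (hC2 : (m:ℝ) + 2 ≤ C)
    (hsm : C * K ^ C * √H ≤ ε) (hv0 : 0 ≤ v) (hv : v ^ 2 ≤ Cs * K ^ m * H) : v ≤ ε * θ := by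
  have hC0 : 0 ≤ C := by linarith
  have hX : K ^ (m + 2) ≤ K ^ C := by
    rw [← Real.rpow_natCast]
    refine Real.rpow_le_rpow_of_exponent_le hK1 ?_
    push_cast
    exact hC2
  have hX0 : 0 ≤ K ^ C := Real.rpow_nonneg (by linarith) _
  have hX1 : 1 ≤ K ^ C := le_trans (one_le_pow₀ hK1) hX
  have hKθ : K * θ = 1 := by rw [hK]; exact inv_mul_cancel₀ hθ.ne'
  have h1 : v ≤ C * K ^ C * √H * θ := by
    refine le_of_sq_le_sq ?_ (by positivity)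
    have h2 : (C * K ^ C * √H * θ) ^ 2 = C ^ 2 * (K ^ C) ^ 2 * H * θ ^ 2 := by
      rw [mul_pow, mul_pow, mul_pow, Real.sq_sqrt hH]
    rw [h2]
    have h3 : Cs ≤ C ^ 2 := by nlinarith
    have h4 : K ^ (m + 2) ≤ (K ^ C) ^ 2 := by nlinarith
    have h5 : Cs * K ^ m * H = Cs * K ^ (m + 2) * H * θ ^ 2 := by
      have : K ^ (m + 2) * θ ^ 2 = K ^ m := by
        rw [pow_add, mul_assoc, ← mul_pow, hKθ, one_pow, mul_one]
      calc Cs * K ^ m * H = Cs * (K ^ (m + 2) * θ ^ 2) * H := by rw [this]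
        _ = _ := by ring
    calc v ^ 2 ≤ Cs * K ^ m * H := hv
      _ = Cs * K ^ (m + 2) * H * θ ^ 2 := h5
      _ ≤ C ^ 2 * (K ^ C) ^ 2 * H * θ ^ 2 := by gcongr
  exact h1.trans (mul_le_mul_of_nonneg_right hsm hθ.le)

variable {E : Type*} [NormedAddCommGroup E] [InnerProductSpace ℝ E] [FiniteDimensional ℝ E]
  [MeasurableSpace E] [BorelSpace E]
variable {m n : ℕ}

/-- the derivative of the lift of a small reference -/
lemma fderiv_lift_le_one {T : Submodule ℝ E} {F : Frame m n T} {u : Fin n → REF.E m → ℝ}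
    {ε r : ℝ} (hu : Refe ε r u) (hε : ε ≤ ((n:ℝ) + 1)⁻¹) (y : E) :
    ‖fderiv ℝ (F.lift u) y‖ ≤ 1 := by
  refine (hu.fderiv_le y).trans ?_
  calc (n:ℝ) * ε ≤ n * ((n:ℝ) + 1)⁻¹ := mul_le_mul_of_nonneg_left hε (Nat.cast_nonneg n)
    _ ≤ 1 := by
      rw [← div_eq_mul_inv, div_le_one (by positivity)]
      linarith

lemma hE_nonneg' (T : Submodule ℝ E) (w : E → E) (ν : Measure E) (r : ℝ) : 0 ≤ hE T w ν r :=
  integral_nonneg fun _ => sq_nonneg _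

/-- **(W0)** mass against the area of the reference -/
theorem w0 (hW : IntWStmt E m n) (hCa : CaccStmt E m n) (hSu : SupStmt E m n) (Q : ℕ) :
    ∃ ε C : ℝ, 0 < ε ∧ 1 ≤ C ∧ ∀ (T : Submodule ℝ E) (F : Frame m n T)
    (u : Fin n → REF.E m → ℝ) (r θ h H : ℝ) (ν : Measure E) (P : E → E →L[ℝ] E), Refe ε r u →
    3 / 32 ≤ r → r ≤ 3 / 16 → 0 < θ → θ ≤ 1 / 640 → IntCyl m Q T 0 (3 / 8) h ε ν P →
    exc T ν P 0 (3 / 8) ≤ ε → H = hE T (F.lift u) ν r → C * θ⁻¹ ^ C * √H ≤ ε →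
    ∀ (ψ : REF.E m → ℝ) (M : ℝ), Continuous ψ → (∀ x, r - 2 * θ ≤ ‖x‖ → ψ x = 0) →
      (∀ x, |ψ x| ≤ M) →
      |∫ y, ψ (F.xc y) ∂ν - Q * ∫ x, ψ x * √(REF.gm u x).det ∂μH[m]| ≤ C * θ⁻¹ ^ C * √H * M := by
  obtain ⟨ε₁, C₁, hε₁, hC₁, H1⟩ := hW Q
  obtain ⟨ε₂, C₂, hε₂, hC₂, H2⟩ := hCa
  obtain ⟨ε₃, C₃, hε₃, hC₃, H3⟩ := hSu
  set m₀ : ℝ := Q * om m + 1 with hm₀
  have hom : 0 ≤ om m := ENNReal.toReal_nonneg
  have hm₀0 : 0 ≤ m₀ := by positivity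
  set c₁ : ℝ := C₂ + √(m₀ * C₂) with hc₁
  have hc₁0 : 0 ≤ c₁ := by positivity
  set C : ℝ := 1 + C₁ * c₁ + (C₁ + 2) + (C₃ + 1) + (m + 2) with hC
  have hCc : 0 ≤ C₁ * c₁ := mul_nonneg hC₁ hc₁0
  have hm0 : (0:ℝ) ≤ m := Nat.cast_nonneg m
  refine ⟨min (min ε₁ ε₂) (min ε₃ (((n:ℝ) + 1)⁻¹)), C, by positivity, by linarith, ?_⟩
  intro T F u r θ h H ν P hu hr1 hr2 hθ hθ2 hI hexc hH hsm ψ M hψ hψ0 hψM
  set ε : ℝ := min (min ε₁ ε₂) (min ε₃ (((n:ℝ) + 1)⁻¹)) with hε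
  have e1 : ε ≤ ε₁ := (min_le_left _ _).trans (min_le_left _ _)
  have e2 : ε ≤ ε₂ := (min_le_left _ _).trans (min_le_right _ _)
  have e3 : ε ≤ ε₃ := (min_le_right _ _).trans (min_le_left _ _)
  have e4 : ε ≤ ((n:ℝ) + 1)⁻¹ := (min_le_right _ _).trans (min_le_right _ _)
  have e5 : ε ≤ 1 := by
    refine e4.trans (inv_le_one_of_one_le₀ ?_)
    have : (0:ℝ) ≤ n := Nat.cast_nonneg n
    linarith
  set K : ℝ := θ⁻¹ with hK
  have hK1 : 1 ≤ K := by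
    rw [hK]
    exact (one_le_inv₀ hθ).2 (by linarith)
  have hH0 : 0 ≤ H := by rw [hH]; exact hE_nonneg' _ _ _ _
  have hKC : 1 ≤ K ^ C := Real.one_le_rpow hK1 (by linarith)
  have hs1 : √H ≤ 1 := by
    have h1 : √H ≤ C * K ^ C * √H := by
      have : 1 ≤ C * K ^ C := one_le_mul_of_one_le_of_one_le (by linarith) hKC
      nlinarith [Real.sqrt_nonneg H]
    linarith
  have hHs : H ≤ √H := by
    have h1 := Real.sq_sqrt hH0
    nlinarith [Real.sqrt_nonneg H]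
  have hrθ : 1 / 16 ≤ r - θ := by linarith
  have hcyl : CylStat m T (ball 0 r) h ν P :=
    hI.cyl.mono isOpen_ball (ball_subset_ball (by linarith))
  have hfd := fderiv_lift_le_one (F := F) hu e4
  -- Caccioppoli
  have hcac : eE T (F.lift u) ν P 0 (r - θ) ≤ C₂ * (K ^ 2 * H) := by
    have := H2 T F u r θ h ν P (hu.mono' e2) hr2 hθ (by linarith) hcyl
    rw [← hH] at this
    linarith
  -- sup bound
  obtain ⟨δ', hI'⟩ := intCyl_smaller hI (ρ := r) (by linarith) (by linarith)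
  have hsup : ∀ y ∈ ν.support, ‖T.starProjection y‖ < r - θ → ‖rel T (F.lift u) y‖ ≤ ε₁ * θ := by
    intro y hy hyr
    have h1 := H3 T F u Q r θ h δ' ν P (hu.mono' e3) hr2 hθ (by linarith) hI' y hy hyr.le
    rw [← hH] at h1
    refine sup_small hθ hK hK1 hH0 hC₃ (by linarith) (by linarith) (hsm.trans e1)
      (norm_nonneg _) h1
  -- integrals
  have hmass := mass_le hI (by norm_num) (e5) (ρ := r - θ) (by linarith)
  have hint := int_add_sqrt_le (F := F) hI.cyl hu.smooth hfd hmass hcac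
  have hsq : √(m₀ * (C₂ * (K ^ 2 * H))) = √(m₀ * C₂) * (K * √H) := by
    rw [← mul_assoc, sqrt_split (by positivity) (by linarith) hH0]
  rw [← hm₀, hsq] at hint
  have hint2 : C₂ * (K ^ 2 * H) + √(m₀ * C₂) * (K * √H) ≤ c₁ * (K ^ 2 * √H) := by
    have h1 : K ^ 2 * H ≤ K ^ 2 * √H := mul_le_mul_of_nonneg_left hHs (by positivity)
    have h2 : K * √H ≤ K ^ 2 * √H := by
      refine mul_le_mul_of_nonneg_right ?_ (Real.sqrt_nonneg _)
      nlinarith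
    calc C₂ * (K ^ 2 * H) + √(m₀ * C₂) * (K * √H)
        ≤ C₂ * (K ^ 2 * √H) + √(m₀ * C₂) * (K ^ 2 * √H) :=
          add_le_add (mul_le_mul_of_nonneg_left h1 hC₂)
            (mul_le_mul_of_nonneg_left h2 (Real.sqrt_nonneg _))
      _ = c₁ * (K ^ 2 * √H) := by rw [hc₁]; ring
  have hM0 : 0 ≤ M := (abs_nonneg _).trans (hψM 0)
  have key := H1 T F u (r - θ) θ h ν P ((hu.mono' e1).mono_r (by linarith)) hrθ (by linarith) hθ hθ2
    ⟨hI.cyl, hI.mem, hI.pos, hI.int, hI.mass.trans (mul_le_mul_of_nonneg_right e1 (by positivity))⟩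
    (hexc.trans e1) hsup ψ M hψ (fun x hx => hψ0 x (by linarith)) hψM
  refine key.trans ?_
  have hK1' : 0 ≤ K ^ C₁ := Real.rpow_nonneg (by linarith) _
  have hp : K ^ C₁ * K ^ 2 = K ^ (C₁ + 2) := by
    rw [Real.rpow_add (by linarith), Real.rpow_two]
  calc C₁ * K ^ C₁ * M * ∫ y in cylSet T 0 (r - θ), (gsq (rel T (F.lift u)) (P y) y
        + √(gsq (rel T (F.lift u)) (P y) y)) ∂ν
      ≤ C₁ * K ^ C₁ * M * (c₁ * (K ^ 2 * √H)) :=
        mul_le_mul_of_nonneg_left (hint.trans hint2) (by positivity)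
    _ = (C₁ * c₁) * (K ^ C₁ * K ^ 2) * √H * M := by ring
    _ = (C₁ * c₁) * K ^ (C₁ + 2) * √H * M := by rw [hp]
    _ ≤ C * K ^ C * √H * M := by
        refine mul_le_mul_of_nonneg_right (mul_le_mul_of_nonneg_right ?_ (Real.sqrt_nonneg _)) hM0
        exact loss hK1 hCc (by linarith) (by linarith)

end Vale.Agent.P214.S1
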